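import Mathlib
import Crest.Agent.R065.CM_474
import Crest.Agent.R023.AxA_952
import Crest.Agent.R003.Kr576

-- ▼ part X262/Fano21/Reg
section

/-!
# Row 262, FANO-ALG (helper21), part 1: regular sequences of forms, heights

* `le_height`  : height of a prime of a polynomial ring from the derivations of its residue field;
* `mm`         : the irrelevant ideal; `Hom I` : homogeneous ideals; `WR L` : regular sequences at `mm`;
* `WR.step`    : a generic element of a linear system extends a regular sequence;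
* `WR.nz`      : the last element is a non zero divisor in the polynomial ring;
* `isPrime_span` : part of a regular system of parameters generates a prime ideal.
-/

set_option autoImplicit false
set_option linter.unusedSectionVars false

open MvPolynomial IsLocalRing RingTheory.Sequence

namespace Crest.Agent.X262.Fano21

open Crest.Agent.R188.Noe Crest.Agent.R065.CM474

noncomputable section

section height

variable {k : Type} [Field k] [CharZero k] {σ : Type} [Fintype σ]

/-- the generic point of a prime -/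
def gen (Q : Ideal (MvPolynomial σ k)) [Q.IsPrime] (s : σ) :
    FractionRing (MvPolynomial σ k ⧸ Q) :=
  algebraMap (MvPolynomial σ k ⧸ Q) _ (Ideal.Quotient.mk Q (X s))

theorem aeval_gen (Q : Ideal (MvPolynomial σ k)) [Q.IsPrime] (r : MvPolynomial σ k) :
    aeval (gen Q) r = algebraMap (MvPolynomial σ k ⧸ Q) (FractionRing (MvPolynomial σ k ⧸ Q))
      (Ideal.Quotient.mk Q r) := by
  have h : aeval (gen Q) = (IsScalarTower.toAlgHom k (MvPolynomial σ k ⧸ Q)
      (FractionRing (MvPolynomial σ k ⧸ Q))).comp (Ideal.Quotient.mkₐ k Q) := by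
    apply MvPolynomial.algHom_ext
    intro s
    simp [gen]
  rw [h]
  rfl

theorem aeval_gen_eq_zero (Q : Ideal (MvPolynomial σ k)) [Q.IsPrime] (r : MvPolynomial σ k) :
    aeval (gen Q) r = 0 ↔ r ∈ Q := by
  rw [aeval_gen, map_eq_zero_iff _ (IsFractionRing.injective _ _), Ideal.Quotient.eq_zero_iff_mem]

/-- **height from derivations** -/
theorem le_height (Q : Ideal (MvPolynomial σ k)) [Q.IsPrime] {c : ℕ}
    (W : Submodule (FractionRing (MvPolynomial σ k ⧸ Q))
      (σ → FractionRing (MvPolynomial σ k ⧸ Q)))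
    (hW : ∀ D : Derivation k (FractionRing (MvPolynomial σ k ⧸ Q))
      (FractionRing (MvPolynomial σ k ⧸ Q)), (fun s => D (gen Q s)) ∈ W)
    (hc : Module.finrank (FractionRing (MvPolynomial σ k ⧸ Q)) W + c ≤ Fintype.card σ) :
    (c : ℕ∞) ≤ Q.height := by
  classical
  set K := FractionRing (MvPolynomial σ k ⧸ Q) with hK
  obtain ⟨ι, hι, j, h1, h2⟩ := Crest.Agent.R003.card_le_height_add k σ Q
  have := Fintype.ofFinite ι
  have hind : AlgebraicIndependent k (fun i => gen Q (j i)) := by
    rw [algebraicIndependent_iff]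
    intro f hf
    apply h1 f
    rw [← aeval_gen_eq_zero, aeval_rename]
    exact hf
  choose D hD using fun i : ι =>
    Crest.Agent.R023.Ax952.exists_derivation hind (Pi.single i (1 : K))
  let v : ι → W := fun i => ⟨fun s => D i (gen Q s), hW (D i)⟩
  have hv : LinearIndependent K v := by
    rw [Fintype.linearIndependent_iff]
    intro g hg i
    have h3 := congrFun (congrArg Subtype.val hg) (j i)
    simp only [v, AddSubmonoidClass.coe_finsetSum, SetLike.val_smul, Finset.sum_apply,
      Pi.smul_apply, smul_eq_mul, ZeroMemClass.coe_zero, Pi.zero_apply, hD] at h3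
    rw [Finset.sum_eq_single i] at h3
    · simpa using h3
    · intro b _ hb
      rw [Pi.single_eq_of_ne (Ne.symm hb), mul_zero]
    · simp
  have h4 : Fintype.card ι ≤ Module.finrank K W := hv.fintype_card_le_finrank
  rw [Nat.card_eq_fintype_card, Nat.card_eq_fintype_card] at h2
  have h5 : (c : ℕ∞) + (Fintype.card ι : ℕ∞) ≤ Q.height + (Fintype.card ι : ℕ∞) := by
    refine le_trans ?_ h2
    have h6 : c + Fintype.card ι ≤ Fintype.card σ :=
      le_trans (by rw [add_comm]; exact Nat.add_le_add_right h4 c) hc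
    exact_mod_cast h6
  exact (ENat.add_le_add_iff_right (ENat.natCast_ne_top _)).1 h5

end height

section graded

variable {k : Type} [Field k] {σ : Type}

/-- the irrelevant ideal -/
def mm (k : Type) [Field k] (σ : Type) : Ideal (MvPolynomial σ k) :=
  RingHom.ker (constantCoeff : MvPolynomial σ k →+* k)

theorem mem_mm {r : MvPolynomial σ k} : r ∈ mm k σ ↔ constantCoeff r = 0 := Iff.rfl

instance mm_max : (mm k σ).IsMaximal :=
  RingHom.ker_isMaximal_of_surjective _ fun a => ⟨C a, by simp⟩


theorem mem_mm_of_hom {r : MvPolynomial σ k} {d : ℕ} (h : r.IsHomogeneous d) (hd : 0 < d) :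
    r ∈ mm k σ := by
  rw [mem_mm, constantCoeff_eq]
  exact h.coeff_eq_zero (by simp; omega)


/-- homogeneous ideals -/
def Hom (I : Ideal (MvPolynomial σ k)) : Prop :=
  ∀ r ∈ I, ∀ d, homogeneousComponent d r ∈ I

attribute [local instance] MvPolynomial.gradedAlgebra

theorem dec_eq (r : MvPolynomial σ k) (d : ℕ) :
    (DirectSum.decompose (homogeneousSubmodule σ k) r d : MvPolynomial σ k) =
      homogeneousComponent d r :=
  decomposition.decompose'_apply r d

theorem hom_iff {I : Ideal (MvPolynomial σ k)} :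
    Hom I ↔ I.IsHomogeneous (homogeneousSubmodule σ k) := by
  constructor
  · intro h d r hr
    rw [dec_eq]
    exact h r hr d
  · intro h r hr d
    rw [← dec_eq]
    exact h d hr

theorem hom_span {s : Set (MvPolynomial σ k)} (h : ∀ r ∈ s, ∃ d, r.IsHomogeneous d) :
    Hom (Ideal.span s) :=
  hom_iff.2 (Ideal.homogeneous_span _ _ fun r hr => h r hr)

theorem Hom.sup {I J : Ideal (MvPolynomial σ k)} (hI : Hom I) (hJ : Hom J) : Hom (I ⊔ J) :=
  hom_iff.2 ((hom_iff.1 hI).sup (hom_iff.1 hJ))

theorem hc_mul {a : MvPolynomial σ k} {e : ℕ} (ha : a.IsHomogeneous e) (r : MvPolynomial σ k)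
    (d : ℕ) : homogeneousComponent (e + d) (a * r) = a * homogeneousComponent d r := by
  rw [← dec_eq, ← dec_eq]
  exact DirectSum.coe_decompose_mul_add_of_left_mem (homogeneousSubmodule σ k) (j := d) ha

theorem hc_mul_lt {a : MvPolynomial σ k} {e : ℕ} (ha : a.IsHomogeneous e) (r : MvPolynomial σ k)
    {d : ℕ} (hd : d < e) : homogeneousComponent d (a * r) = 0 := by
  rw [← dec_eq]
  exact DirectSum.coe_decompose_mul_of_left_mem_of_not_le (homogeneousSubmodule σ k) ha
    (not_le.2 hd)

theorem hc_self {a : MvPolynomial σ k} {e : ℕ} (ha : a.IsHomogeneous e) :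
    homogeneousComponent e a = a := by
  rw [homogeneousComponent_of_mem (n := e) ha, if_pos rfl]

/-- a homogeneous ideal is saturated with respect to the complement of `mm` -/
theorem Hom.sat {I : Ideal (MvPolynomial σ k)} (hI : Hom I) {s r : MvPolynomial σ k}
    (hs : s ∉ mm k σ) (h : s * r ∈ I) : r ∈ I := by
  classical
  have key : ∀ n, ∀ d < n, homogeneousComponent d r ∈ I := by
    intro n
    induction n with
    | zero => intro d hd; omega
    | succ n ih =>
      intro d hd
      by_cases hdn : d < n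
      · exact ih d hdn
      have hd' : d = n := by omega
      subst hd'
      have h1 := hI _ h d
      have h2 : homogeneousComponent d (s * r) = ∑ e ∈ Finset.range (s.totalDegree + 1),
          homogeneousComponent d (homogeneousComponent e s * r) := by
        conv_lhs => rw [← sum_homogeneousComponent s, Finset.sum_mul, map_sum]
      rw [h2, Finset.sum_range_succ'] at h1
      have h3 : ∑ e ∈ Finset.range s.totalDegree,
          homogeneousComponent d (homogeneousComponent (e + 1) s * r) ∈ I := by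
        refine I.sum_mem fun e _ => ?_
        by_cases he : e + 1 ≤ d
        · obtain ⟨d', hd'⟩ := Nat.exists_eq_add_of_le he
          rw [hd', hc_mul (homogeneousComponent_isHomogeneous _ _)]
          exact I.mul_mem_left _ (ih d' (by omega))
        · rw [hc_mul_lt (homogeneousComponent_isHomogeneous _ _) _ (by omega)]
          exact I.zero_mem
      have h4 := (I.add_mem_iff_right h3).1 h1
      rw [homogeneousComponent_zero, homogeneousComponent_C_mul] at h4
      have h5 : coeff 0 s ≠ 0 := fun h0 => hs (by rw [mem_mm, constantCoeff_eq]; exact h0)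
      have h6 := I.mul_mem_left (C (coeff 0 s)⁻¹) h4
      rwa [← mul_assoc, ← map_mul, inv_mul_cancel₀ h5, map_one, one_mul] at h6
  rw [← sum_homogeneousComponent r]
  exact I.sum_mem fun d hd => key _ d (Finset.mem_range.1 hd)

end graded

section seq

variable {k : Type} [Field k] {σ : Type} [Fintype σ]

/-- the local ring at the origin -/
abbrev A0 (k : Type) [Field k] (σ : Type) : Type := Localization.AtPrime (mm k σ)

/-- regular sequences in the local ring at the origin -/
structure WR (L : List (MvPolynomial σ k)) : Prop where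
  mem : ∀ r ∈ L, r ∈ mm k σ
  reg : IsWeaklyRegular (A0 k σ) (L.map (algebraMap _ (A0 k σ)))

theorem WR.nil : WR ([] : List (MvPolynomial σ k)) := ⟨by simp, by simp⟩

theorem WR.memA {L : List (MvPolynomial σ k)} (h : WR L) :
    ∀ r ∈ L.map (algebraMap _ (A0 k σ)), r ∈ maximalIdeal (A0 k σ) := by
  intro r hr
  obtain ⟨x, hx, rfl⟩ := List.mem_map.1 hr
  exact algebraMap_mem_maximalIdeal (h.mem x hx)


theorem WR.init {L L' : List (MvPolynomial σ k)} (h : WR (L ++ L')) : WR L := by
  refine ⟨fun r hr => h.mem r (List.mem_append_left _ hr), ?_⟩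
  have := h.reg
  rw [List.map_append, isWeaklyRegular_append_iff] at this
  exact this.1

theorem mem_map_iff {I : Ideal (MvPolynomial σ k)} {r : MvPolynomial σ k} :
    algebraMap _ (A0 k σ) r ∈ I.map (algebraMap _ (A0 k σ)) ↔ ∃ s, s ∉ mm k σ ∧ s * r ∈ I := by
  rw [IsLocalization.algebraMap_mem_map_algebraMap_iff (mm k σ).primeCompl]
  exact ⟨fun ⟨s, hs, h⟩ => ⟨s, hs, h⟩, fun ⟨s, hs, h⟩ => ⟨s, hs, h⟩⟩

/-- the last element of a regular sequence, local form -/
theorem WR.nz_loc {L : List (MvPolynomial σ k)} {a : MvPolynomial σ k} (h : WR (L ++ [a]))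
    {b : MvPolynomial σ k} (hb : a * b ∈ Ideal.ofList L) :
    ∃ s, s ∉ mm k σ ∧ s * b ∈ Ideal.ofList L := by
  have h1 := h.reg
  rw [List.map_append, isWeaklyRegular_append_iff] at h1
  have h2 := h1.2
  simp only [List.map_cons, List.map_nil] at h2
  rw [isWeaklyRegular_singleton_iff] at h2
  have key : ∀ x : A0 k σ, x ∈ (Ideal.ofList (L.map (algebraMap _ (A0 k σ))) • ⊤ :
      Submodule (A0 k σ) (A0 k σ)) ↔ x ∈ (Ideal.ofList L).map (algebraMap _ (A0 k σ)) := by
    intro x
    rw [smul_eq_mul, Ideal.mul_top, Ideal.map_ofList]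
  have h3 := h2.right_eq_zero_of_smul (x := Submodule.Quotient.mk (algebraMap _ (A0 k σ) b)) (by
    rw [← Submodule.Quotient.mk_smul, Submodule.Quotient.mk_eq_zero, key, smul_eq_mul, ← map_mul]
    exact Ideal.mem_map_of_mem _ hb)
  rw [Submodule.Quotient.mk_eq_zero, key] at h3
  exact mem_map_iff.1 h3

/-- the last element of a regular sequence -/
theorem WR.nz {L : List (MvPolynomial σ k)} {a : MvPolynomial σ k} (h : WR (L ++ [a]))
    (hL : Hom (Ideal.ofList L)) {b : MvPolynomial σ k} (hb : a * b ∈ Ideal.ofList L) :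
    b ∈ Ideal.ofList L := by
  obtain ⟨s, hs, h1⟩ := h.nz_loc hb
  exact hL.sat hs h1

theorem WR.ofList_le {L : List (MvPolynomial σ k)} (h : WR L) : Ideal.ofList L ≤ mm k σ :=
  Ideal.span_le.2 fun r hr => h.mem r hr

theorem WR.not_mem {L : List (MvPolynomial σ k)} {a : MvPolynomial σ k} (h : WR (L ++ [a])) :
    a ∉ Ideal.ofList L := by
  intro ha
  obtain ⟨s, hs, h1⟩ := h.nz_loc (b := 1) (by rwa [mul_one])
  rw [mul_one] at h1
  exact hs (h.init.ofList_le h1)

/-- **one step** -/
theorem WR.step [Infinite k] {L : List (MvPolynomial σ k)} (h : WR L)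
    (V : Submodule k (MvPolynomial σ k)) (hVm : ∀ r ∈ V, r ∈ mm k σ)
    (hV : ∀ Q : Ideal (MvPolynomial σ k), Q.IsPrime → Ideal.ofList L ≤ Q → (∀ r ∈ V, r ∈ Q) →
      ((L.length + 1 : ℕ) : ℕ∞) ≤ Q.height) :
    ∃ g ∈ V, WR (L ++ [g]) := by
  set rs := L.map (algebraMap _ (A0 k σ)) with hrs
  set M := (A0 k σ ⧸ (Ideal.ofList rs • ⊤ : Submodule (A0 k σ) (A0 k σ))) with hM
  have hlen : rs.length = L.length := by simp [hrs]
  have hfinh : (mm k σ).height ≠ ⊤ := Ideal.height_ne_top (mm_max.ne_top)
  obtain ⟨c, hc⟩ := ENat.ne_top_iff_exists.1 hfinh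
  have hj : L.length + 1 ≤ c := by
    have := hV (mm k σ) inferInstance h.ofList_le hVm
    rw [← hc] at this
    exact_mod_cast this
  obtain ⟨n, hn⟩ := Nat.exists_eq_add_of_le hj
  have hCM : CM (A0 k σ) ((n + 1) + rs.length) (A0 k σ) := by
    have := cm_localization hc.symm
    rwa [hn, show L.length + 1 + n = (n + 1) + rs.length by omega] at this
  have hfin : (associatedPrimes (A0 k σ) M).Finite := associatedPrimes.finite _ _
  obtain ⟨g, hgV, hg⟩ := exists_mem_forall_notMem V
    ((fun q : Ideal (A0 k σ) => q.comap (algebraMap (MvPolynomial σ k) (A0 k σ))) ''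
        associatedPrimes (A0 k σ) M) (hfin.image _) (by
      rintro _ ⟨q, hq, rfl⟩ hle
      have hqp : q.IsPrime := (AssociatedPrimes.mem_iff.1 hq).isPrime
      have hLq : Ideal.ofList L ≤ q.comap (algebraMap (MvPolynomial σ k) (A0 k σ)) := by
        rw [← Ideal.map_le_iff_le_comap, Ideal.map_ofList]
        have h7 := (AssociatedPrimes.mem_iff.1 hq).annihilator_le
        refine le_trans ?_ h7
        intro x hx
        rw [Submodule.annihilator_top, Module.mem_annihilator]
        intro m
        obtain ⟨m, rfl⟩ := Submodule.Quotient.mk_surjective _ m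
        rw [← Submodule.Quotient.mk_smul, Submodule.Quotient.mk_eq_zero]
        exact Submodule.smul_mem_smul hx trivial
      have h1 := hV _ (Ideal.IsPrime.comap _) hLq (fun r hr => hle hr)
      have h2 := height_le_of_assoc rs h.memA hCM h.reg hq
      have h3 : (q.comap (algebraMap (MvPolynomial σ k) (A0 k σ))).height = q.height :=
        IsLocalization.height_under (mm k σ).primeCompl q
      rw [h3] at h1
      rw [hlen] at h2
      have h4 := h1.trans h2
      have h5 : L.length + 1 ≤ L.length := by exact_mod_cast h4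
      omega)
  refine ⟨g, hgV, ?_, ?_⟩
  · intro r hr
    rcases List.mem_append.1 hr with hr | hr
    · exact h.mem r hr
    · rw [List.mem_singleton.1 hr]; exact hVm g hgV
  rw [List.map_append, isWeaklyRegular_append_iff]
  refine ⟨h.reg, ?_⟩
  simp only [List.map_cons, List.map_nil]
  rw [isWeaklyRegular_singleton_iff]
  by_contra hr
  have : algebraMap (MvPolynomial σ k) (A0 k σ) g ∈
      ⋃ p ∈ associatedPrimes (A0 k σ) M, (p : Set (A0 k σ)) := by
    rw [biUnion_associatedPrimes_eq_compl_regular]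
    exact hr
  simp only [Set.mem_iUnion, SetLike.mem_coe, exists_prop] at this
  obtain ⟨q, hq, hgq⟩ := this
  exact hg _ ⟨q, hq, rfl⟩ hgq

/-- a family of `c` polynomials cutting out codimension `c` has a regular basis -/
theorem exists_WR_span [Infinite k] {c : ℕ} (f : Fin c → MvPolynomial σ k)
    (hf : ∀ i, f i ∈ mm k σ)
    (hh : ∀ Q : Ideal (MvPolynomial σ k), Q.IsPrime → (∀ i, f i ∈ Q) → (c : ℕ∞) ≤ Q.height) :
    ∃ L : List (MvPolynomial σ k), L.length = c ∧ WR L ∧
      (∀ g ∈ L, g ∈ Submodule.span k (Set.range f)) ∧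
      Ideal.ofList L = Ideal.span (Set.range f) := by
  classical
  set V := Submodule.span k (Set.range f) with hV
  have hVQ : ∀ Q : Ideal (MvPolynomial σ k), (∀ i, f i ∈ Q) → ∀ r ∈ V, r ∈ Q := by
    intro Q hQ r hr
    have : V ≤ Q.restrictScalars k := Submodule.span_le.2 (by rintro _ ⟨i, rfl⟩; exact hQ i)
    exact this hr
  have : FiniteDimensional k V := FiniteDimensional.span_of_finite k (Set.finite_range f)
  have key : ∀ j ≤ c, ∃ L : List (MvPolynomial σ k), L.length = j ∧ WR L ∧ (∀ g ∈ L, g ∈ V) ∧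
      j ≤ Module.finrank k (Submodule.span k {x | x ∈ L}) := by
    intro j
    induction j with
    | zero => intro _; exact ⟨[], rfl, WR.nil, by simp, Nat.zero_le _⟩
    | succ j ih =>
      intro hj
      obtain ⟨L, h1, h2, h3, h4⟩ := ih (by omega)
      obtain ⟨g, hg, h5⟩ := h2.step V (hVQ _ hf) fun Q hQ _ hVQ' => by
        refine le_trans ?_ (hh Q hQ fun i => hVQ' _ (Submodule.subset_span ⟨i, rfl⟩))
        rw [h1]
        exact_mod_cast hj
      refine ⟨L ++ [g], by simp [h1], h5, ?_, ?_⟩
      · intro r hr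
        rcases List.mem_append.1 hr with hr | hr
        · exact h3 r hr
        · rw [List.mem_singleton.1 hr]; exact hg
      · have hfd : FiniteDimensional k (Submodule.span k {x | x ∈ L ++ [g]}) :=
          FiniteDimensional.span_of_finite k (List.finite_toSet _)
        have hlt : Submodule.span k {x | x ∈ L} < Submodule.span k {x | x ∈ L ++ [g]} := by
          refine lt_of_le_of_ne (Submodule.span_mono fun x hx => List.mem_append_left _ hx) ?_
          intro he
          have h6 : g ∈ Submodule.span k {x | x ∈ L} := by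
            rw [he]; exact Submodule.subset_span (by simp)
          have h7 : Submodule.span k {x | x ∈ L} ≤ (Ideal.ofList L).restrictScalars k :=
            Submodule.span_le.2 fun x hx => Ideal.subset_span hx
          exact h5.not_mem (h7 h6)
        have := Submodule.finrank_lt_finrank_of_lt hlt
        omega
  obtain ⟨L, h1, h2, h3, h4⟩ := key c le_rfl
  refine ⟨L, h1, h2, h3, ?_⟩
  have h5 : Submodule.span k {x | x ∈ L} ≤ V := Submodule.span_le.2 fun x hx => h3 x hx
  have h6 : Module.finrank k V ≤ c := by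
    have := finrank_range_le_card (R := k) f
    simpa [Set.finrank] using this
  have h7 : Submodule.span k {x | x ∈ L} = V :=
    Submodule.eq_of_le_of_finrank_le h5 (h6.trans h4)
  apply le_antisymm
  · exact Ideal.span_le.2 fun x hx => hVQ _
      (fun i => Ideal.subset_span (Set.mem_range_self i)) x (h3 x hx)
  · rw [Ideal.span_le]
    rintro _ ⟨i, rfl⟩
    have h8 : f i ∈ Submodule.span k {x | x ∈ L} := by
      rw [h7]; exact Submodule.subset_span ⟨i, rfl⟩
    have h9 : Submodule.span k {x | x ∈ L} ≤ (Ideal.ofList L).restrictScalars k :=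
      Submodule.span_le.2 fun x hx => Ideal.subset_span hx
    exact h9 h8


end seq

section prime

/-- part of a regular system of parameters generates a prime ideal -/
theorem isPrime_span : ∀ (c : ℕ) (R : Type) [CommRing R] [IsRegularLocalRing R] (x : Fin c → R),
    (∀ i, x i ∈ maximalIdeal R) →
    (∀ r : Fin c → R, ∑ i, r i * x i ∈ maximalIdeal R ^ 2 → ∀ i, r i ∈ maximalIdeal R) →
    (Ideal.span (Set.range x)).IsPrime := by
  intro c
  induction c with
  | zero =>
    intro R _ _ x _ _
    have := isDomain_of_regular R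
    rw [Set.range_eq_empty, Ideal.span_empty]
    exact Ideal.isPrime_bot
  | succ c ih =>
    intro R _ _ x hx hind
    have hx2 : x 0 ∉ maximalIdeal R ^ 2 := by
      intro h
      have := hind (Pi.single 0 1) (by simpa [Pi.single_apply] using h) 0
      rw [Pi.single_eq_same] at this
      exact (maximalIdeal.isMaximal R).ne_top ((Ideal.eq_top_iff_one _).2 this)
    obtain ⟨d, hd⟩ : ∃ d : ℕ, ringKrullDim R = (d + 1 : ℕ) := by
      have h1 := (isRegularLocalRing_iff R).1 inferInstance
      rcases hn : (maximalIdeal R).spanFinrank with _ | d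
      · exfalso
        have h2 : maximalIdeal R = ⊥ :=
          (Submodule.spanFinrank_eq_zero_iff_eq_bot (IsNoetherian.noetherian _)).1 hn
        apply hx2
        have h3 := hx 0
        rw [h2, Ideal.mem_bot] at h3
        rw [h3]
        exact Ideal.zero_mem _
      · exact ⟨d, by rw [← h1, hn]⟩
    obtain ⟨hR', -⟩ := isRegularLocalRing_quotient hd (hx 0) hx2
    set π := Ideal.Quotient.mk (Ideal.span {x 0}) with hπ
    have hsurj : Function.Surjective π := Ideal.Quotient.mk_surjective
    have hmax : (maximalIdeal R).map π = maximalIdeal (R ⧸ Ideal.span {x 0}) :=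
      IsLocalRing.map_maximalIdeal_of_surjective _ hsurj
    have hp := ih (R ⧸ Ideal.span {x 0}) (fun i => π (x i.succ))
      (fun i => by rw [← hmax]; exact Ideal.mem_map_of_mem _ (hx _)) (by
        intro r hr i
        choose r' hr' using fun i => hsurj (r i)
        rw [← hmax, ← Ideal.map_pow] at hr
        have h1 : ∑ i, r i * π (x i.succ) = π (∑ i, r' i * x i.succ) := by
          rw [map_sum]
          exact Finset.sum_congr rfl fun i _ => by rw [map_mul, hr']
        rw [h1, Ideal.mem_map_iff_of_surjective _ hsurj] at hr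
        obtain ⟨y, hy, hy'⟩ := hr
        rw [hπ, Ideal.Quotient.eq, Ideal.mem_span_singleton'] at hy'
        obtain ⟨a, ha⟩ := hy'
        have h2 := hind (Fin.cons a r') (by
          rw [Fin.sum_univ_succ]
          simp only [Fin.cons_zero, Fin.cons_succ]
          have : a * x 0 + ∑ i, r' i * x i.succ = y := by rw [ha]; ring
          rw [this]; exact hy) i.succ
        rw [Fin.cons_succ] at h2
        rw [← hmax, ← hr']
        exact Ideal.mem_map_of_mem _ h2)
    have he : Ideal.span (Set.range x) =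
        (Ideal.span (Set.range fun i : Fin c => π (x i.succ))).comap π := by
      have h1 : Ideal.span (Set.range fun i : Fin c => π (x i.succ)) =
          (Ideal.span (Set.range fun i : Fin c => x i.succ)).map π := by
        rw [Ideal.map_span, ← Set.range_comp]
        rfl
      rw [h1, Ideal.comap_map_of_surjective _ hsurj, ← RingHom.ker_eq_comap_bot, hπ,
        Ideal.mk_ker, ← Ideal.span_union, Fin.range_fin_succ, Set.insert_eq, Set.union_comm]
      rfl
    rw [he]
    exact Ideal.comap_isPrime _ _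

end prime

end

end Crest.Agent.X262.Fano21
end

-- ▼ part X262/Fano21/CI

/-!
# Row 262, FANO-ALG (helper21), part 2: complete intersection cones which are smooth in
codimension one

`D : CI k σ c ι` : forms `f_1..f_c` cutting out codimension `c`, forms `p_j` of one degree cutting
out codimension two in `V(f)`, Jacobian of rank `c` on `Z0 = V(f) \ V(p)`.

* `mem_of_vanish` : a polynomial vanishing on `Z0` lies in `(f)`;
* `s2`            : a function `h` on `Z0` with `p_j ^ N * h` polynomial for all `j` is polynomial;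
* `isPrime`       : `(f)` is prime; `Z0_nonempty`.
-/

set_option autoImplicit false
set_option linter.unusedSectionVars false

open MvPolynomial IsLocalRing

namespace Crest.Agent.X262.Fano21

noncomputable section

section nz

variable {R : Type*} [CommRing R]

/-- non zero divisor modulo `I` -/
def Nz (I : Ideal R) (a : R) : Prop := ∀ b, a * b ∈ I → b ∈ I

theorem Nz.mul {I : Ideal R} {a a' : R} (h : Nz I a) (h' : Nz I a') : Nz I (a * a') :=
  fun b hb => h' b (h _ (by rwa [← mul_assoc]))

theorem Nz.pow {I : Ideal R} {a : R} (h : Nz I a) (n : ℕ) : Nz I (a ^ n) := by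
  induction n with
  | zero => intro b hb; simpa using hb
  | succ n ih => rw [pow_succ]; exact ih.mul h

theorem mem_sup_span {I : Ideal R} {a r : R} :
    r ∈ I ⊔ Ideal.span {a} ↔ ∃ u, r - a * u ∈ I := by
  constructor
  · intro h
    obtain ⟨i, hi, y, hy, rfl⟩ := Submodule.mem_sup.1 h
    obtain ⟨u, rfl⟩ := Ideal.mem_span_singleton'.1 hy
    exact ⟨u, by simpa [mul_comm] using hi⟩
  · rintro ⟨u, hu⟩
    have : r = (r - a * u) + a * u := by ring
    rw [this]
    exact Submodule.add_mem_sup hu (Ideal.mul_mem_right _ _ (Ideal.mem_span_singleton_self a))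

theorem Nz.sup_pow {I : Ideal R} {a b : R} (ha : Nz I a) (hb : Nz (I ⊔ Ideal.span {a}) b) (n : ℕ) :
    Nz (I ⊔ Ideal.span {a ^ n}) b := by
  induction n with
  | zero => intro r _; exact mem_sup_span.2 ⟨r, by simp⟩
  | succ n ih =>
    intro r hr
    obtain ⟨u, hu⟩ := mem_sup_span.1 hr
    obtain ⟨r', hr'⟩ := mem_sup_span.1 (hb r (mem_sup_span.2 ⟨a ^ n * u, by
      rwa [← mul_assoc, ← pow_succ']⟩))
    have h1 : a * (b * r' - a ^ n * u) ∈ I := by
      have : a * (b * r' - a ^ n * u) = (b * r - a ^ (n + 1) * u) - b * (r - a * r') := by ring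
      rw [this]
      exact I.sub_mem hu (I.mul_mem_left _ hr')
    obtain ⟨u', hu'⟩ := mem_sup_span.1 (ih r' (mem_sup_span.2 ⟨u, ha _ h1⟩))
    refine mem_sup_span.2 ⟨u', ?_⟩
    have : r - a ^ (n + 1) * u' = (r - a * r') + a * (r' - a ^ n * u') := by ring
    rw [this]
    exact I.add_mem hr' (I.mul_mem_left _ hu')

end nz

section null

variable {k : Type} [Field k] [IsAlgClosed k] {σ : Type} [Finite σ]

theorem pow_mem_of_vanish {J : Ideal (MvPolynomial σ k)} {r : MvPolynomial σ k}
    (h : ∀ z : σ → k, (∀ s ∈ J, eval z s = 0) → eval z r = 0) : ∃ n, r ^ n ∈ J := by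
  have h1 : r ∈ vanishingIdeal k (zeroLocus k J) := by
    rw [mem_vanishingIdeal_iff]
    intro z hz
    have := h z fun s hs => by simpa [coe_aeval_eq_eval] using hz s hs
    simpa [coe_aeval_eq_eval] using this
  rw [vanishingIdeal_zeroLocus_eq_radical] at h1
  exact h1

end null

section dual

variable {k : Type} [Field k] {σ : Type}

/-- the point `z + ε v` -/
def pt (z v : σ → k) (s : σ) : DualNumber k := TrivSqZeroExt.inl (z s) + TrivSqZeroExt.inr (v s)

@[simp] theorem fst_pt (z v : σ → k) (s : σ) : (pt z v s).fst = z s := by simp [pt]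

@[simp] theorem snd_pt (z v : σ → k) (s : σ) : (pt z v s).snd = v s := by simp [pt]

theorem fst_aeval (z v : σ → k) (r : MvPolynomial σ k) : (aeval (pt z v) r).fst = eval z r := by
  have h : (TrivSqZeroExt.fstHom k k k).comp (aeval (pt z v)) = aeval z := by
    apply MvPolynomial.algHom_ext
    intro s
    simp
  have h2 := DFunLike.congr_fun h r
  rw [← coe_aeval_eq_eval]
  exact h2

/-- the derivative of `r` at `z` in the direction `v` -/
def dv (z v : σ → k) (r : MvPolynomial σ k) : k := (aeval (pt z v) r).snd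

theorem dv_eq [Fintype σ] (z v : σ → k) (r : MvPolynomial σ k) :
    dv z v r = ∑ s, eval z (pderiv s r) * v s := by
  classical
  induction r using MvPolynomial.induction_on with
  | C a => simp [dv, TrivSqZeroExt.algebraMap_eq_inl]
  | add p q hp hq =>
    simp only [dv, map_add, TrivSqZeroExt.snd_add, add_mul, Finset.sum_add_distrib] at *
    rw [hp, hq]
  | mul_X p s hp =>
    unfold dv at *
    rw [map_mul, TrivSqZeroExt.snd_mul, fst_aeval, hp, aeval_X, fst_pt, snd_pt]
    simp only [Derivation.leibniz, pderiv_X, smul_eq_mul, map_add, map_mul, eval_X, add_mul,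
      Finset.sum_add_distrib, MulOpposite.smul_eq_mul_unop, MulOpposite.unop_op]
    congr 1
    · rw [Finset.sum_eq_single s]
      · simp
      · intro b _ hb
        simp [Pi.single_eq_of_ne (Ne.symm hb)]
      · simp
    · rw [Finset.sum_mul]
      exact Finset.sum_congr rfl fun b _ => by ring

/-- the maximal ideal of a point -/
def nn (z : σ → k) : Ideal (MvPolynomial σ k) := RingHom.ker (eval z)

theorem mem_nn {z : σ → k} {r : MvPolynomial σ k} : r ∈ nn z ↔ eval z r = 0 := Iff.rfl

instance nn_max (z : σ → k) : (nn z).IsMaximal :=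
  RingHom.ker_isMaximal_of_surjective _ fun a => ⟨C a, by simp⟩

/-- polynomials in the ideal `I` near `z` -/
def locP (I : Ideal (MvPolynomial σ k)) (z : σ → k) : Ideal (MvPolynomial σ k) :=
  (I.map (algebraMap _ (Localization.AtPrime (nn z)))).comap (algebraMap _ _)

theorem mem_locP {I : Ideal (MvPolynomial σ k)} {z : σ → k} {r : MvPolynomial σ k} :
    r ∈ locP I z ↔ ∃ s, eval z s ≠ 0 ∧ s * r ∈ I := by
  rw [locP, Ideal.mem_comap, IsLocalization.algebraMap_mem_map_algebraMap_iff (nn z).primeCompl]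
  exact ⟨fun ⟨s, hs, h⟩ => ⟨s, hs, h⟩, fun ⟨s, hs, h⟩ => ⟨s, hs, h⟩⟩

theorem le_locP (I : Ideal (MvPolynomial σ k)) (z : σ → k) : I ≤ locP I z :=
  fun r hr => mem_locP.2 ⟨1, by simp, by simpa using hr⟩

/-- **Jacobian criterion** -/
theorem locP_isPrime [Finite σ] {c : ℕ} (f : Fin c → MvPolynomial σ k) (z : σ → k)
    (hz : ∀ i, eval z (f i) = 0)
    (hj : ∀ l : Fin c → k, (∀ v : σ → k, ∑ i, l i * dv z v (f i) = 0) → l = 0) :
    (locP (Ideal.span (Set.range f)) z).IsPrime := by
  set A := Localization.AtPrime (nn z) with hA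
  have hu : ∀ v : σ → k, ∀ y : (nn z).primeCompl,
      IsUnit ((aeval (pt z v) : MvPolynomial σ k →ₐ[k] DualNumber k).toRingHom y) := by
    intro v y
    rw [TrivSqZeroExt.isUnit_iff_isUnit_fst]
    change IsUnit (aeval (pt z v) (y : MvPolynomial σ k)).fst
    rw [fst_aeval]
    exact IsUnit.mk0 _ y.2
  let θ : (σ → k) → A →+* DualNumber k := fun v => IsLocalization.lift (hu v)
  have hθ : ∀ v r, θ v (algebraMap _ A r) = aeval (pt z v) r := fun v r =>
    IsLocalization.lift_eq (hu v) r
  have hfst : ∀ v (a : A), (θ v a).fst = (θ 0 a).fst := by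
    intro v a
    have h : (TrivSqZeroExt.fstHom k k k).toRingHom.comp (θ v) =
        (TrivSqZeroExt.fstHom k k k).toRingHom.comp (θ 0) := by
      apply IsLocalization.ringHom_ext (nn z).primeCompl
      ext1
      · ext a
        change (θ v (algebraMap _ A (C a))).fst = (θ 0 (algebraMap _ A (C a))).fst
        rw [hθ, hθ, fst_aeval, fst_aeval]
      · rename_i s
        change (θ v (algebraMap _ A (X s))).fst = (θ 0 (algebraMap _ A (X s))).fst
        rw [hθ, hθ, fst_aeval, fst_aeval]
    exact DFunLike.congr_fun h a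
  have hmax : ∀ v (a : A), a ∈ maximalIdeal A ↔ (θ v a).fst = 0 := by
    intro v a
    constructor
    · intro ha
      obtain ⟨⟨r, s⟩, rfl⟩ := IsLocalization.mk'_surjective (nn z).primeCompl a
      have hr : r ∈ nn z := (IsLocalization.AtPrime.mk'_mem_maximal_iff A (nn z) r s).1 ha
      have h1 : θ v (IsLocalization.mk' A r s) * θ v (algebraMap _ A (s : MvPolynomial σ k)) =
          θ v (algebraMap _ A r) := by
        rw [← map_mul, IsLocalization.mk'_spec]
      have h2 := congrArg TrivSqZeroExt.fst h1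
      rw [TrivSqZeroExt.fst_mul, hθ, hθ, fst_aeval, fst_aeval, mem_nn.1 hr] at h2
      exact (mul_eq_zero.1 h2).resolve_right s.2
    · intro ha
      by_contra hna
      have h1 : IsUnit a := by
        by_contra h2
        exact hna h2
      have h2 := (TrivSqZeroExt.isUnit_iff_isUnit_fst).1 (h1.map (θ v))
      rw [ha] at h2
      exact not_isUnit_zero h2
  have hsq : ∀ v (a : A), a ∈ maximalIdeal A ^ 2 → (θ v a).snd = 0 := by
    intro v a ha
    rw [pow_two] at ha
    refine Submodule.mul_induction_on ha (fun x hx y hy => ?_) (fun x y hx hy => ?_)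
    · rw [map_mul, TrivSqZeroExt.snd_mul, (hmax v x).1 hx, (hmax v y).1 hy]
      simp
    · rw [map_add, TrivSqZeroExt.snd_add, hx, hy, add_zero]
  have hp := isPrime_span c A (fun i => algebraMap _ A (f i))
    (fun i => (IsLocalization.AtPrime.to_map_mem_maximal_iff A (nn z) _).2 (hz i)) (by
      intro r hr i
      have h1 := hj (fun i => (θ 0 (r i)).fst) fun v => by
        have h2 := hsq v _ hr
        rw [map_sum, TrivSqZeroExt.snd_sum] at h2
        rw [← h2]
        refine Finset.sum_congr rfl fun i _ => ?_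
        rw [map_mul, TrivSqZeroExt.snd_mul, hθ, fst_aeval, hz i, hfst v]
        simp [dv]
      exact (hmax 0 _).2 (congrFun h1 i))
  have he : (Ideal.span (Set.range f)).map (algebraMap _ A) =
      Ideal.span (Set.range fun i => algebraMap _ A (f i)) := by
    rw [Ideal.map_span, ← Set.range_comp]
    rfl
  unfold locP
  rw [he]
  exact Ideal.comap_isPrime _ _

end dual

section weights

variable {k : Type} [Field k] {σ : Type}

/-- the action of a one parameter subgroup -/
def act (w : σ → ℕ) (t : k) (z : σ → k) : σ → k := fun s => t ^ w s * z s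

theorem eval_act {w : σ → ℕ} {r : MvPolynomial σ k} {d : ℕ} (hr : r.IsWeightedHomogeneous w d)
    (t : k) (z : σ → k) : eval (act w t z) r = t ^ d * eval z r := by
  rw [eval_eq, eval_eq, Finset.mul_sum]
  refine Finset.sum_congr rfl fun m hm => ?_
  rw [← hr (mem_support_iff.1 hm), Finsupp.weight_apply, Finsupp.sum, ← Finset.prod_pow_eq_pow_sum,
    mul_left_comm, ← Finset.prod_mul_distrib]
  congr 1
  refine Finset.prod_congr rfl fun s _ => ?_
  rw [act, mul_pow, ← pow_mul, smul_eq_mul, mul_comm (m s)]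

theorem eval_smul_hom {r : MvPolynomial σ k} {d : ℕ} (hr : r.IsHomogeneous d) (t : k)
    (z : σ → k) : eval (t • z) r = t ^ d * eval z r := by
  have h : t • z = act 1 t z := by
    funext s
    simp [act]
  rw [h]
  exact eval_act hr t z



end weights

/-- complete intersection cones, smooth in codimension one -/
structure CI (k σ : Type) [Field k] (c : ℕ) (ι : Type) where
  f : Fin c → MvPolynomial σ k
  p : ι → MvPolynomial σ k
  e : ℕ
  e_pos : 0 < e
  f_hom : ∀ i, ∃ d, 0 < d ∧ (f i).IsHomogeneous d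
  p_hom : ∀ j, (p j).IsHomogeneous e
  h1 : ∀ Q : Ideal (MvPolynomial σ k), Q.IsPrime → (∀ i, f i ∈ Q) → (c : ℕ∞) ≤ Q.height
  h2 : ∀ Q : Ideal (MvPolynomial σ k), Q.IsPrime → (∀ i, f i ∈ Q) → (∀ j, p j ∈ Q) →
    ((c + 2 : ℕ) : ℕ∞) ≤ Q.height
  jac : ∀ z : σ → k, (∀ i, eval z (f i) = 0) → (∃ j, eval z (p j) ≠ 0) →
    ∀ l : Fin c → k, (∀ v : σ → k, ∑ i, l i * dv z v (f i) = 0) → l = 0

namespace CI

variable {k σ : Type} [Field k] [IsAlgClosed k] [CharZero k] [Fintype σ] {c : ℕ} {ι : Type}
  (D : CI k σ c ι)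

/-- the ideal -/
def I : Ideal (MvPolynomial σ k) := Ideal.span (Set.range D.f)

/-- the smooth part -/
def Z0 : Set (σ → k) := {z | (∀ i, eval z (D.f i) = 0) ∧ ∃ j, eval z (D.p j) ≠ 0}

theorem f_mem (i : Fin c) : D.f i ∈ D.I := Ideal.subset_span ⟨i, rfl⟩

theorem hom_I : Hom D.I := hom_span (by
  rintro _ ⟨i, rfl⟩
  obtain ⟨d, -, h⟩ := D.f_hom i
  exact ⟨d, h⟩)

theorem I_le_mm : D.I ≤ mm k σ := Ideal.span_le.2 (by
  rintro _ ⟨i, rfl⟩
  obtain ⟨d, hd, h⟩ := D.f_hom i
  exact mem_mm_of_hom h hd)

theorem eval_of_mem {z : σ → k} (hz : ∀ i, eval z (D.f i) = 0) {r : MvPolynomial σ k}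
    (hr : r ∈ D.I) : eval z r = 0 := by
  have : D.I ≤ nn z := Ideal.span_le.2 (by rintro _ ⟨i, rfl⟩; exact hz i)
  exact this hr

theorem span_hom {a : MvPolynomial σ k} (ha : a ∈ Submodule.span k (Set.range D.p)) :
    a.IsHomogeneous D.e := by
  have : Submodule.span k (Set.range D.p) ≤ homogeneousSubmodule σ k D.e :=
    Submodule.span_le.2 (by rintro _ ⟨j, rfl⟩; exact D.p_hom j)
  exact this ha

theorem span_mem {J : Ideal (MvPolynomial σ k)} (hJ : ∀ j, D.p j ∈ J) {a : MvPolynomial σ k}
    (ha : a ∈ Submodule.span k (Set.range D.p)) : a ∈ J := by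
  have : Submodule.span k (Set.range D.p) ≤ J.restrictScalars k :=
    Submodule.span_le.2 (by rintro _ ⟨j, rfl⟩; exact hJ j)
  exact this ha

/-- depth two along `V(p)` -/
theorem exists_reg : ∃ a ∈ Submodule.span k (Set.range D.p),
    ∃ b ∈ Submodule.span k (Set.range D.p), Nz D.I a ∧ Nz (D.I ⊔ Ideal.span {a}) b := by
  obtain ⟨L, hlen, hL, -, hI⟩ := exists_WR_span D.f (fun i => D.I_le_mm (D.f_mem i)) D.h1
  have hI' : Ideal.ofList L = D.I := hI
  have hVm : ∀ r ∈ Submodule.span k (Set.range D.p), r ∈ mm k σ := fun r hr =>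
    mem_mm_of_hom (D.span_hom hr) D.e_pos
  obtain ⟨a, ha, hLa⟩ := hL.step _ hVm fun Q hQ h1 h2 => by
    refine le_trans ?_ (D.h2 Q hQ (fun i => h1 (hI' ▸ D.f_mem i))
      fun j => h2 _ (Submodule.subset_span ⟨j, rfl⟩))
    rw [hlen]
    exact_mod_cast (by omega : c + 1 ≤ c + 2)
  have hIa : Ideal.ofList (L ++ [a]) = D.I ⊔ Ideal.span {a} := by
    rw [Ideal.ofList_append, hI', Ideal.ofList_singleton]
  obtain ⟨b, hb, hLb⟩ := hLa.step _ hVm fun Q hQ h1 h2 => by
    refine le_trans ?_ (D.h2 Q hQ (fun i => h1 (hIa ▸ Ideal.mem_sup_left (D.f_mem i)))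
      fun j => h2 _ (Submodule.subset_span ⟨j, rfl⟩))
    rw [List.length_append, hlen]
    exact le_of_eq (by simp [add_assoc])
  refine ⟨a, ha, b, hb, fun r hr => ?_, fun r hr => ?_⟩
  · rw [← hI'] at hr ⊢
    exact hLa.nz (hI' ▸ D.hom_I) hr
  · rw [← hIa] at hr ⊢
    refine hLb.nz ?_ hr
    rw [hIa]
    exact D.hom_I.sup (hom_span (by rintro _ rfl; exact ⟨_, D.span_hom ha⟩))

theorem locP_prime {z : σ → k} (hz : z ∈ D.Z0) : (locP D.I z).IsPrime :=
  locP_isPrime D.f z hz.1 (D.jac z hz.1 hz.2)

theorem locP_le {z : σ → k} (hz : ∀ i, eval z (D.f i) = 0) : locP D.I z ≤ nn z := by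
  intro r hr
  obtain ⟨s, hs, h⟩ := mem_locP.1 hr
  have := D.eval_of_mem hz h
  rw [map_mul] at this
  exact (mul_eq_zero.1 this).resolve_left hs

/-- **the ideal is the ideal of `Z0`** -/
theorem mem_of_vanish {r : MvPolynomial σ k} (hr : ∀ z ∈ D.Z0, eval z r = 0) : r ∈ D.I := by
  obtain ⟨a, ha, -, -, hna, -⟩ := D.exists_reg
  obtain ⟨n, hn⟩ := pow_mem_of_vanish (J := D.I.colon {r}) (r := a) fun z hz => by
    have hz1 : ∀ i, eval z (D.f i) = 0 := fun i => hz _ (by
      rw [Submodule.mem_colon_singleton]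
      exact D.I.mul_mem_right _ (D.f_mem i))
    by_contra hza
    have hz2 : ∃ j, eval z (D.p j) ≠ 0 := by
      by_contra hcon
      push Not at hcon
      exact hza (D.span_mem (J := nn z) hcon ha)
    obtain ⟨j, hj⟩ := hz2
    have hp := D.locP_prime ⟨hz1, j, hj⟩
    obtain ⟨m, hm⟩ := pow_mem_of_vanish (J := D.I) (r := r * D.p j) fun y hy => by
      rw [map_mul]
      by_cases h : eval y (D.p j) = 0
      · rw [h, mul_zero]
      · rw [hr y ⟨fun i => hy _ (D.f_mem i), j, h⟩, zero_mul]
    have h1 := hp.mem_of_pow_mem m (le_locP _ _ hm)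
    rcases hp.mem_or_mem h1 with h2 | h2
    · obtain ⟨s, hs, h3⟩ := mem_locP.1 h2
      exact hs (hz s (by rwa [Submodule.mem_colon_singleton]))
    · exact hj (D.locP_le hz1 h2)
  rw [Submodule.mem_colon_singleton] at hn
  exact hna.pow n r hn


theorem Z0_nonempty : D.Z0.Nonempty := by
  by_contra h
  rw [Set.not_nonempty_iff_eq_empty] at h
  have h1 : (1 : MvPolynomial σ k) ∈ D.I := D.mem_of_vanish fun z hz => by simp [h] at hz
  exact mm_max.ne_top ((Ideal.eq_top_iff_one _).2 (D.I_le_mm h1))

/-- **Serre's condition `S2`, for functions** -/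
theorem s2 (h : (σ → k) → k)
    (H : ∀ j, ∃ (N : ℕ) (Q : MvPolynomial σ k), ∀ z ∈ D.Z0, eval z (D.p j) ^ N * h z = eval z Q) :
    ∃ Q : MvPolynomial σ k, ∀ z ∈ D.Z0, h z = eval z Q := by
  obtain ⟨a, ha, b, hb, hna, hnb⟩ := D.exists_reg
  let J : Ideal (MvPolynomial σ k) :=
    { carrier := {r | ∃ Q : MvPolynomial σ k, ∀ z ∈ D.Z0, eval z r * h z = eval z Q}
      add_mem' := by
        rintro x y ⟨Q, hQ⟩ ⟨Q', hQ'⟩
        exact ⟨Q + Q', fun z hz => by rw [map_add, map_add, add_mul, hQ z hz, hQ' z hz]⟩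
      zero_mem' := ⟨0, by simp⟩
      smul_mem' := by
        rintro r x ⟨Q, hQ⟩
        exact ⟨r * Q, fun z hz => by rw [smul_eq_mul, map_mul, map_mul, mul_assoc, hQ z hz]⟩ }
  have hJ : ∀ j, D.p j ∈ J.radical := fun j => by
    obtain ⟨N, Q, hQ⟩ := H j
    exact ⟨N, Q, fun z hz => by rw [map_pow, hQ z hz]⟩
  obtain ⟨n, Q1, hQ1⟩ := D.span_mem hJ ha
  obtain ⟨m, Q2, hQ2⟩ := D.span_mem hJ hb
  have h1 : b ^ m * Q1 - a ^ n * Q2 ∈ D.I := D.mem_of_vanish fun z hz => by
    rw [map_sub, map_mul, map_mul, ← hQ1 z hz, ← hQ2 z hz]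
    ring
  obtain ⟨Q, hQ⟩ := mem_sup_span.1 (((hna.sup_pow hnb n).pow m) Q1 (mem_sup_span.2 ⟨Q2, h1⟩))
  refine ⟨Q, fun z hz => ?_⟩
  obtain ⟨j, hj⟩ := hz.2
  obtain ⟨N, Q3, hQ3⟩ := H j
  have h2 : a ^ n * (Q3 - D.p j ^ N * Q) ∈ D.I := D.mem_of_vanish fun y hy => by
    have h3 := D.eval_of_mem hy.1 hQ
    rw [map_sub, map_mul, ← hQ1 y hy] at h3
    rw [map_mul, map_sub, map_mul, map_pow (eval y) (D.p j), ← hQ3 y hy]
    linear_combination (eval y (D.p j)) ^ N * h3
  have h3 := D.eval_of_mem hz.1 (hna.pow n _ h2)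
  rw [map_sub, map_mul, map_pow, ← hQ3 z hz, ← mul_sub] at h3
  exact sub_eq_zero.1 ((mul_eq_zero.1 h3).resolve_left (pow_ne_zero _ hj))

theorem smul_mem {z : σ → k} (hz : z ∈ D.Z0) {t : k} (ht : t ≠ 0) : t • z ∈ D.Z0 := by
  obtain ⟨h1, j, hj⟩ := hz
  refine ⟨fun i => ?_, j, ?_⟩
  · obtain ⟨d, -, hd⟩ := D.f_hom i
    rw [eval_smul_hom hd, h1 i, mul_zero]
  · rw [eval_smul_hom (D.p_hom j)]
    exact mul_ne_zero (pow_ne_zero _ ht) hj

/-- a polynomial with values in `{0, 1}` on `Z0` is constant -/
theorem const_of_idem {Q : MvPolynomial σ k} (hQ : ∀ z ∈ D.Z0, eval z Q = 0 ∨ eval z Q = 1)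
    {z : σ → k} (hz : z ∈ D.Z0) : eval z Q = eval 0 Q := by
  set q : Polynomial k := aeval (fun s => Polynomial.C (z s) * Polynomial.X) Q with hq
  have hev : ∀ t : k, q.eval t = eval (t • z) Q := by
    intro t
    have h : (Polynomial.aeval t : Polynomial k →ₐ[k] k).comp
        (aeval fun s => Polynomial.C (z s) * Polynomial.X) = aeval (t • z) := by
      apply MvPolynomial.algHom_ext
      intro s
      rw [AlgHom.comp_apply, aeval_X, aeval_X, map_mul, Polynomial.aeval_C, Polynomial.aeval_X,
        mul_comm]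
      rfl
    have h2 := DFunLike.congr_fun h Q
    rw [← coe_aeval_eq_eval, ← Polynomial.coe_aeval_eq_eval]
    exact h2
  have h1 : q * (q - 1) = 0 := by
    apply Polynomial.eq_zero_of_infinite_isRoot
    refine Set.Infinite.mono (s := {0}ᶜ) ?_ (Set.finite_singleton (0 : k)).infinite_compl
    intro t ht
    have := hQ _ (D.smul_mem hz ht)
    rw [Set.mem_ofPred_eq, Polynomial.IsRoot, Polynomial.eval_mul, Polynomial.eval_sub, hev,
      Polynomial.eval_one]
    rcases this with h | h <;> simp [h]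
  have h2 : q.eval 1 = q.eval 0 := by
    rcases mul_eq_zero.1 h1 with h | h
    · simp [h]
    · simp [sub_eq_zero.1 h]
  rwa [hev, hev, one_smul, zero_smul] at h2

/-- **the ideal is prime** -/
theorem isPrime : D.I.IsPrime := by
  classical
  obtain ⟨z0, hz0⟩ := D.Z0_nonempty
  set P := locP D.I z0 with hP
  have hPp : P.IsPrime := D.locP_prime hz0
  have hIP : D.I ≤ P := le_locP _ _
  -- on `V(P)` the local ideal is `P`
  have h1 : ∀ z ∈ D.Z0, P ≤ nn z → P ≤ locP D.I z := by
    intro z hz hle r hr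
    obtain ⟨s, hs, h⟩ := mem_locP.1 hr
    rcases (D.locP_prime hz).mem_or_mem (le_locP _ _ h) with h2 | h2
    · exfalso
      obtain ⟨s', hs', h3⟩ := mem_locP.1 h2
      rcases hPp.mem_or_mem (hIP h3) with h4 | h4
      · exact hs' (hle h4)
      · exact hs (D.locP_le hz0.1 h4)
    · exact h2
  set Q := D.I.colon (P : Set (MvPolynomial σ k)) with hQ
  have h2 : ∀ z ∈ D.Z0, P ≤ nn z → ∃ s ∈ Q, eval z s ≠ 0 := by
    intro z hz hle
    obtain ⟨T, hT⟩ := IsNoetherian.noetherian P
    have h3 : ∀ r ∈ T, ∃ s, eval z s ≠ 0 ∧ s * r ∈ D.I := fun r hr =>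
      mem_locP.1 (h1 z hz hle (hT ▸ Submodule.subset_span hr))
    choose! s hs1 hs2 using h3
    refine ⟨∏ r ∈ T, s r, ?_, ?_⟩
    · rw [hQ, Submodule.mem_colon]
      intro r hr
      have h4 : P ≤ D.I.colon {∏ r ∈ T, s r} := by
        rw [← hT, Submodule.span_le]
        intro r hr
        rw [SetLike.mem_coe, Submodule.mem_colon_singleton, smul_eq_mul,
          ← Finset.mul_prod_erase T s hr, ← mul_assoc, mul_comm r]
        exact D.I.mul_mem_right _ (hs2 r hr)
      have h5 := h4 hr
      rwa [Submodule.mem_colon_singleton, smul_eq_mul, mul_comm] at h5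
    · rw [map_prod]
      exact Finset.prod_ne_zero_iff.2 hs1
  have h3 : ∀ z ∈ D.Z0, ¬ P ≤ nn z → ∀ s ∈ Q, eval z s = 0 := by
    intro z hz hle s hs
    obtain ⟨r, hr, hr'⟩ := SetLike.not_le_iff_exists.1 hle
    have h4 := D.eval_of_mem hz.1 ((Submodule.mem_colon.1 hs) r hr)
    rw [smul_eq_mul, map_mul] at h4
    exact (mul_eq_zero.1 h4).resolve_right hr'
  obtain ⟨F, hF⟩ := D.s2 (fun z => if P ≤ nn z then 1 else 0) fun j => by
    obtain ⟨N, hN⟩ := pow_mem_of_vanish (J := P ⊔ Q) (r := D.p j) fun z hz => by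
      by_contra hj
      have hz' : z ∈ D.Z0 := ⟨fun i => hz _ (Ideal.mem_sup_left (hIP (D.f_mem i))), j, hj⟩
      obtain ⟨s, hs, hs'⟩ := h2 z hz' fun r hr => hz r (Ideal.mem_sup_left hr)
      exact hs' (hz s (Ideal.mem_sup_right hs))
    obtain ⟨u, hu, u', hu', he⟩ := Submodule.mem_sup.1 hN
    refine ⟨N, u', fun z hz => ?_⟩
    split_ifs with hle
    · rw [mul_one, ← map_pow, ← he, map_add, mem_nn.1 (hle hu), zero_add]
    · rw [mul_zero, h3 z hz hle u' hu']
  have h4 : ∀ z ∈ D.Z0, eval z F = 0 ∨ eval z F = 1 := fun z hz => by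
    rw [← hF z hz]
    split_ifs <;> simp
  have h5 : ∀ z ∈ D.Z0, P ≤ nn z := by
    intro z hz
    by_contra hle
    have h6 := hF z hz
    have h7 := hF z0 hz0
    rw [if_neg hle, D.const_of_idem h4 hz] at h6
    rw [if_pos (D.locP_le hz0.1), D.const_of_idem h4 hz0, ← h6] at h7
    exact one_ne_zero h7
  have h6 : D.I = P := le_antisymm hIP fun r hr => D.mem_of_vanish fun z hz => h5 z hz hr
  rw [h6]
  exact hPp

end CI

end

end Crest.Agent.X262.Fano21
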