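import Crest.Agent.X262.Fano21.CI
import Mathlib
import Crest.Agent.X262.Rig38.Tri

-- ▼ part X262/Fano21/Pol
section

/-!
# Row 262, FANO-ALG (helper21), part 4: the polar form of a cubic

`pol G : (ν → R) →ₗ (ν → R) →ₗ (ν → R) →ₗ R`, the symmetric trilinear form of a cubic form `G` with
coefficients in a `ℚ`-algebra `A`, evaluated in any `A`-algebra `R`.
-/

set_option autoImplicit false
set_option linter.unusedSectionVars false

open MvPolynomial

namespace Crest.Agent.X262.Fano21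

noncomputable section

variable {A : Type*} [CommRing A] [Algebra ℚ A] {ν : Type*} [Fintype ν]

theorem pderiv_comm (i j : ν) (G : MvPolynomial ν A) :
    pderiv i (pderiv j G) = pderiv j (pderiv i G) := by
  classical
  induction G using MvPolynomial.induction_on with
  | C a => simp
  | add p q hp hq => simp [hp, hq]
  | mul_X p s hp =>
    simp only [Derivation.leibniz, pderiv_X, smul_eq_mul, map_add, hp]
    have h1 : ∀ a b c : ν, pderiv a ((Pi.single b 1 : ν → MvPolynomial ν A) c) = 0 := by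
      intro a b c
      by_cases h : c = b
      · subst h; simp
      · simp [Pi.single_eq_of_ne h]
    rw [h1, h1]
    ring

/-- the coefficients of the polar form -/
def cf (G : MvPolynomial ν A) (i j l : ν) : A :=
  (6⁻¹ : ℚ) • coeff 0 (pderiv i (pderiv j (pderiv l G)))

theorem cf_12 (G : MvPolynomial ν A) (i j l : ν) : cf G i j l = cf G j i l := by
  rw [cf, cf, pderiv_comm i j]

theorem cf_23 (G : MvPolynomial ν A) (i j l : ν) : cf G i j l = cf G i l j := by
  rw [cf, cf, pderiv_comm j l]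




variable {R : Type*} [CommRing R] [Algebra A R]

/-- the polar form -/
def pol (G : MvPolynomial ν A) : (ν → R) →ₗ[R] (ν → R) →ₗ[R] (ν → R) →ₗ[R] R :=
  ∑ i, ∑ j, ∑ l, algebraMap A R (cf G i j l) •
    (LinearMap.proj i).smulRight ((LinearMap.proj j).smulRight (LinearMap.proj l))

theorem pol_apply (G : MvPolynomial ν A) (u v w : ν → R) :
    pol G u v w = ∑ i, ∑ j, ∑ l, algebraMap A R (cf G i j l) * (u i * (v j * w l)) := by
  simp only [pol, LinearMap.sum_apply, LinearMap.smul_apply, LinearMap.smulRight_apply,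
    LinearMap.proj_apply, smul_eq_mul]

variable (G : MvPolynomial ν A)

theorem pol_12 (u v w : ν → R) : pol G u v w = pol G v u w := by
  rw [pol_apply, pol_apply, Finset.sum_comm]
  refine Finset.sum_congr rfl fun i _ => Finset.sum_congr rfl fun j _ =>
    Finset.sum_congr rfl fun l _ => ?_
  rw [cf_12]
  ring

theorem pol_23 (u v w : ν → R) : pol G u v w = pol G u w v := by
  rw [pol_apply, pol_apply]
  refine Finset.sum_congr rfl fun i _ => ?_
  rw [Finset.sum_comm]
  refine Finset.sum_congr rfl fun j _ => Finset.sum_congr rfl fun l _ => ?_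
  rw [cf_23]
  ring

theorem pol_13 (u v w : ν → R) : pol G u v w = pol G w v u := by
  rw [pol_12, pol_23, pol_12]




theorem algHom_pol {R' : Type*} [CommRing R'] [Algebra A R'] (ψ : R →ₐ[A] R')
    (u v w : ν → R) : ψ (pol G u v w) = pol G (ψ ∘ u) (ψ ∘ v) (ψ ∘ w) := by
  simp only [pol_apply, map_sum, map_mul, AlgHom.commutes, Function.comp_apply]

theorem pol_eq_sum [DecidableEq ν] (u v w : ν → R) :
    pol G u v w = ∑ i, w i * pol G u v (Pi.single i 1) := by
  conv_lhs => rw [← Finset.univ_sum_single w, map_sum]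
  refine Finset.sum_congr rfl fun i _ => ?_
  rw [← smul_eq_mul, ← map_smul, ← Pi.single_smul, smul_eq_mul, mul_one]

theorem deriv_pol {M : Type*} [AddCommGroup M] [Module R M] [Module A M] [IsScalarTower A R M]
    [DecidableEq ν] (D : Derivation A R M) (u v w : ν → R) :
    D (pol G u v w) = ∑ i, (pol G v w (Pi.single i 1) • D (u i) +
      pol G u w (Pi.single i 1) • D (v i) + pol G u v (Pi.single i 1) • D (w i)) := by
  have key : ∀ (a b c : ν → R), (∑ i, pol G a b (Pi.single i 1) • D (c i)) =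
      ∑ i, ∑ j, ∑ l, (algebraMap A R (cf G i j l) * (a i * b j)) • D (c l) := by
    intro a b c
    simp only [pol_apply, Finset.sum_smul]
    rw [Finset.sum_comm]
    refine Finset.sum_congr rfl fun i _ => ?_
    rw [Finset.sum_comm]
    refine Finset.sum_congr rfl fun j _ => Finset.sum_congr rfl fun l _ => ?_
    rw [Finset.sum_eq_single l]
    · simp
    · intro b _ hb
      simp [Pi.single_eq_of_ne hb]
    · simp
  rw [Finset.sum_add_distrib, Finset.sum_add_distrib, key, key, key]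
  have e1 : (∑ i, ∑ j, ∑ l, (algebraMap A R (cf G i j l) * (v i * w j)) • D (u l)) =
      ∑ i, ∑ j, ∑ l, (algebraMap A R (cf G i j l) * (v j * w l)) • D (u i) := by
    rw [Finset.sum_congr rfl fun i _ => Finset.sum_comm, Finset.sum_comm]
    refine Finset.sum_congr rfl fun i _ => Finset.sum_congr rfl fun j _ =>
      Finset.sum_congr rfl fun l _ => ?_
    rw [cf_23, cf_12]
  have e2 : (∑ i, ∑ j, ∑ l, (algebraMap A R (cf G i j l) * (u i * w j)) • D (v l)) =
      ∑ i, ∑ j, ∑ l, (algebraMap A R (cf G i j l) * (u i * w l)) • D (v j) := by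
    refine Finset.sum_congr rfl fun i _ => ?_
    rw [Finset.sum_comm]
    refine Finset.sum_congr rfl fun j _ => Finset.sum_congr rfl fun l _ => ?_
    rw [cf_23]
  rw [e1, e2, pol_apply, map_sum, ← Finset.sum_add_distrib, ← Finset.sum_add_distrib]
  refine Finset.sum_congr rfl fun i _ => ?_
  rw [map_sum, ← Finset.sum_add_distrib, ← Finset.sum_add_distrib]
  refine Finset.sum_congr rfl fun j _ => ?_
  rw [map_sum, ← Finset.sum_add_distrib, ← Finset.sum_add_distrib]
  refine Finset.sum_congr rfl fun l _ => ?_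
  simp only [Derivation.leibniz, Derivation.map_algebraMap, smul_zero, add_zero, smul_add,
    smul_smul]
  rw [mul_comm (u i) (w l), mul_comm (v j) (w l)]
  abel

/-- Leibniz rule for derivations of `R` -/
theorem deriv_pol' (D : Derivation A R R) (u v w : ν → R) :
    D (pol G u v w) = pol G (D ∘ u) v w + pol G u (D ∘ v) w + pol G u v (D ∘ w) := by
  classical
  rw [deriv_pol, Finset.sum_add_distrib, Finset.sum_add_distrib, pol_13 G (D ∘ u), pol_12 G w v,
    pol_23 G u (D ∘ v), pol_eq_sum G v w (D ∘ u), pol_eq_sum G u w (D ∘ v),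
    pol_eq_sum G u v (D ∘ w)]
  simp only [smul_eq_mul, Function.comp_apply, mul_comm]

variable {G}

theorem eq_C_of_hom0 {H : MvPolynomial ν A} (h : H.IsHomogeneous 0) : H = C (coeff 0 H) := by
  rw [← homogeneousComponent_zero, homogeneousComponent_of_mem (n := 0) h, if_pos rfl]

theorem six_cf (G : MvPolynomial ν A) (i j l : ν) :
    6 * cf G i j l = coeff 0 (pderiv i (pderiv j (pderiv l G))) := by
  have : (6 : A) = (6 : ℚ) • (1 : A) := by
    rw [Algebra.smul_def, mul_one, map_ofNat]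
  rw [cf, this, smul_mul_assoc, one_mul, smul_smul]
  norm_num

theorem cancel_nat (A : Type*) [CommRing A] [Algebra ℚ A] {R : Type*} [CommRing R] [Algebra A R]
    {n : ℕ} (hn : n ≠ 0) {a b : R} (h : (n : R) * a = n * b) : a = b := by
  have h1 : algebraMap A R (algebraMap ℚ A (n : ℚ)⁻¹) * (n : R) = 1 := by
    rw [← map_natCast (algebraMap A R), ← map_natCast (algebraMap ℚ A), ← map_mul, ← map_mul,
      inv_mul_cancel₀ (by exact_mod_cast hn), map_one, map_one]
  rw [← one_mul a, ← one_mul b, ← h1, mul_assoc, h, mul_assoc]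

theorem aeval_pderiv2 [DecidableEq ν] (hG : G.IsHomogeneous 3) (u : ν → R) (j l : ν) :
    aeval u (pderiv j (pderiv l G)) = ∑ i, 6 * algebraMap A R (cf G i j l) * u i := by
  have h1 : (pderiv j (pderiv l G)).IsHomogeneous 1 := hG.pderiv.pderiv
  have h2 := h1.sum_X_mul_pderiv
  rw [one_smul] at h2
  rw [← h2, map_sum]
  refine Finset.sum_congr rfl fun i _ => ?_
  rw [map_mul, aeval_X, eq_C_of_hom0 (h1.pderiv (i := i)), aeval_C, ← six_cf, map_mul, map_ofNat,
    mul_comm]

theorem aeval_pderiv [DecidableEq ν] (hG : G.IsHomogeneous 3) (u : ν → R) (l : ν) :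
    aeval u (pderiv l G) = 3 * pol G u u (Pi.single l 1) := by
  have h1 : (pderiv l G).IsHomogeneous 2 := hG.pderiv
  have h2 := congrArg (aeval u) h1.sum_X_mul_pderiv
  rw [map_sum, map_nsmul, nsmul_eq_mul] at h2
  refine cancel_nat A (n := 2) two_ne_zero ?_
  rw [← h2, pol_apply, Finset.sum_comm, Finset.mul_sum, Finset.mul_sum]
  refine Finset.sum_congr rfl fun j _ => ?_
  rw [map_mul, aeval_X, aeval_pderiv2 hG, Finset.mul_sum, Finset.mul_sum, Finset.mul_sum]
  refine Finset.sum_congr rfl fun i _ => ?_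
  rw [Finset.sum_eq_single l]
  · simp only [Pi.single_eq_same, Nat.cast_ofNat]
    ring
  · intro b _ hb
    simp [Pi.single_eq_of_ne hb]
  · simp

theorem aeval_eq_pol (hG : G.IsHomogeneous 3) (u : ν → R) : aeval u G = pol G u u u := by
  classical
  have h2 := congrArg (aeval u) hG.sum_X_mul_pderiv
  rw [map_sum, map_nsmul, nsmul_eq_mul] at h2
  refine cancel_nat A (n := 3) three_ne_zero ?_
  rw [← h2, pol_eq_sum G u u u, Finset.mul_sum]
  refine Finset.sum_congr rfl fun l _ => ?_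
  rw [map_mul, aeval_X, aeval_pderiv hG]
  simp only [Nat.cast_ofNat]
  ring


theorem pol_line2 (G : MvPolynomial ν A) (s t : R) (x y w : ν → R) :
    pol G (s • x + t • y) (s • x + t • y) w =
      s ^ 2 * pol G x x w + 2 * s * t * pol G x y w + t ^ 2 * pol G y y w := by
  simp only [map_add, map_smul, LinearMap.add_apply, LinearMap.smul_apply, smul_eq_mul]
  rw [pol_12 G y x w]
  ring

/-- the polar form of three weighted homogeneous vectors -/
theorem pol_whom {σ M : Type*} [AddCommMonoid M] (G : MvPolynomial ν A) {wt : σ → M}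
    {u v w : ν → MvPolynomial σ A} {a b c : M} (hu : ∀ i, (u i).IsWeightedHomogeneous wt a)
    (hv : ∀ i, (v i).IsWeightedHomogeneous wt b) (hw : ∀ i, (w i).IsWeightedHomogeneous wt c) :
    (pol G u v w).IsWeightedHomogeneous wt (a + (b + c)) := by
  rw [pol_apply]
  refine IsWeightedHomogeneous.sum _ _ _ fun i _ => IsWeightedHomogeneous.sum _ _ _ fun j _ =>
    IsWeightedHomogeneous.sum _ _ _ fun l _ => ?_
  have := (isWeightedHomogeneous_C wt (cf G i j l)).mul ((hu i).mul ((hv j).mul (hw l)))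
  rwa [zero_add] at this

end

end Crest.Agent.X262.Fano21
end

-- ▼ part X262/Fano21/Fano
section

/-!
# Row 262, FANO-ALG (helper21), part 5: the cone of frames of lines on a smooth cubic fourfold

`Z = {(x, y) : φ(x,x,x) = φ(x,x,y) = φ(x,y,y) = φ(y,y,y) = 0} ⊆ k⁶ × k⁶`.

* `SmC G`   : smooth cubic forms; `SmC.eq_zero` : smoothness over every field;
* `SmC.rank`: lines are unobstructed;
* `frames`  : `Z` is a complete intersection cone, smooth off `x ∧ y = 0`  (`CI`);
* `cone`    : the cone over the cubic itself.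
-/

set_option autoImplicit false
set_option linter.unusedSectionVars false

open MvPolynomial

namespace Crest.Agent.X262.Fano21

noncomputable section

variable {k : Type} [Field k] [IsAlgClosed k] [CharZero k] {ν : Type} [Fintype ν] [DecidableEq ν]

/-- smooth cubic forms -/
structure SmC (G : MvPolynomial ν k) : Prop where
  hom : G.IsHomogeneous 3
  sm : ∀ p : ν → k, p ≠ 0 → eval p G = 0 → ∃ i, eval p (pderiv i G) ≠ 0

variable {G : MvPolynomial ν k}

theorem eval_eq_pol (hG : G.IsHomogeneous 3) (u : ν → k) : eval u G = pol G u u u := by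
  rw [← coe_aeval_eq_eval]; exact aeval_eq_pol hG u

theorem eval_pderiv (hG : G.IsHomogeneous 3) (u : ν → k) (l : ν) :
    eval u (pderiv l G) = 3 * pol G u u (Pi.single l 1) := by
  rw [← coe_aeval_eq_eval]; exact aeval_pderiv hG u l

theorem SmC.zero_of_pderiv (h : SmC G) (z : ν → k) (hz : ∀ i, eval z (pderiv i G) = 0) : z = 0 := by
  by_contra hne
  have h1 : ∀ i, pol G z z (Pi.single i 1) = 0 := fun i => by
    have := hz i
    rw [eval_pderiv h.hom] at this
    exact (mul_eq_zero.1 this).resolve_left (by norm_num)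
  obtain ⟨i, hi⟩ := h.sm z hne (by rw [eval_eq_pol h.hom, pol_eq_sum]; simp [h1])
  exact hi (hz i)

theorem SmC.pow_mem (h : SmC G) (s : ν) :
    ∃ n, (X s : MvPolynomial ν k) ^ n ∈ Ideal.span (Set.range fun i => pderiv i G) :=
  pow_mem_of_vanish fun z hz => by
    rw [h.zero_of_pderiv z fun i => hz _ (Ideal.subset_span ⟨i, rfl⟩)]
    simp

/-- smoothness over every reduced algebra -/
theorem SmC.eq_zero (h : SmC G) {K : Type*} [CommRing K] [IsReduced K] [Algebra k K] (u : ν → K)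
    (hu : ∀ i, pol G u u (Pi.single i 1) = 0) : u = 0 := by
  funext s
  obtain ⟨n, hn⟩ := h.pow_mem s
  have h1 : Ideal.span (Set.range fun i => pderiv i G) ≤
      RingHom.ker (aeval u : MvPolynomial ν k →ₐ[k] K) := Ideal.span_le.2 (by
    rintro _ ⟨i, rfl⟩
    rw [SetLike.mem_coe, RingHom.mem_ker, aeval_pderiv h.hom, hu, mul_zero])
  have h2 := h1 hn
  rw [RingHom.mem_ker, map_pow, aeval_X] at h2
  exact IsReduced.eq_zero _ ⟨n, h2⟩

theorem exists_st {K : Type*} [Field K] [IsAlgClosed K] (a b c d : K)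
    (h : ¬ (a = 0 ∧ b = 0 ∧ c = 0 ∧ d = 0)) : ∃ s t u v : K, ¬ (s = 0 ∧ t = 0) ∧
      s ^ 2 = u * a + v * b ∧ s * t = u * b + v * c ∧ t ^ 2 = u * c + v * d := by
  have key : ∀ p q r : K, p * r = q ^ 2 → ¬ (p = 0 ∧ r = 0) →
      ∃ s t : K, ¬ (s = 0 ∧ t = 0) ∧ s ^ 2 = p ∧ s * t = q ∧ t ^ 2 = r := by
    intro p q r h1 h2
    by_cases hp : p = 0
    · obtain ⟨t, ht⟩ := IsAlgClosed.exists_pow_nat_eq r two_pos
      have hq : q = 0 := by
        rw [hp, zero_mul] at h1
        exact pow_eq_zero_iff two_ne_zero |>.1 h1.symm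
      refine ⟨0, t, fun h3 => h2 ⟨hp, by rw [← ht, h3.2]; simp⟩, by simp [hp], by simp [hq], ht⟩
    · obtain ⟨s, hs⟩ := IsAlgClosed.exists_pow_nat_eq p two_pos
      have hs0 : s ≠ 0 := fun h3 => hp (by rw [← hs, h3]; simp)
      refine ⟨s, q / s, fun h3 => hs0 h3.1, hs, by field_simp, ?_⟩
      rw [div_pow, hs, ← h1]
      field_simp
  by_cases h1 : a * c = b ^ 2
  · by_cases h2 : a = 0 ∧ c = 0
    · have hb : b = 0 := by
        rw [h2.1, zero_mul] at h1
        exact pow_eq_zero_iff two_ne_zero |>.1 h1.symm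
      have hd : d ≠ 0 := fun hd => h ⟨h2.1, hb, h2.2, hd⟩
      obtain ⟨s, t, h3, h4, h5, h6⟩ := key b c d (by simp [hb, h2.2]) fun h3 => hd h3.2
      exact ⟨s, t, 0, 1, h3, by simpa using h4, by simpa using h5, by simpa using h6⟩
    · obtain ⟨s, t, h3, h4, h5, h6⟩ := key a b c h1 h2
      exact ⟨s, t, 1, 0, h3, by simpa using h4, by simpa using h5, by simpa using h6⟩
  · have hq : a * c - b ^ 2 ≠ 0 := sub_ne_zero.2 h1
    obtain ⟨u, hu⟩ := IsAlgClosed.exists_root (Polynomial.C (a * c - b ^ 2) * Polynomial.X ^ 2 +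
      Polynomial.C (a * d - b * c) * Polynomial.X + Polynomial.C (b * d - c ^ 2))
      (by rw [Polynomial.degree_quadratic hq]; decide)
    simp only [Polynomial.IsRoot, Polynomial.eval_add, Polynomial.eval_mul, Polynomial.eval_C,
      Polynomial.eval_pow, Polynomial.eval_X] at hu
    have h2 : (u * a + b) * (u * c + d) = (u * b + c) ^ 2 := by linear_combination hu
    obtain ⟨s, t, h3, h4, h5, h6⟩ := key _ _ _ h2 fun h3 => by
      have h4 : u * b + c = 0 := by
        rw [h3.1, zero_mul] at h2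
        exact pow_eq_zero_iff two_ne_zero |>.1 h2.symm
      exact hq (by linear_combination a * h4 - b * h3.1)
    exact ⟨s, t, u, 1, h3, by simpa using h4, by simpa using h5, by simpa using h6⟩

theorem SmC.rank_aux (h : SmC G) {K : Type*} [Field K] [IsAlgClosed K] [Algebra k K]
    {x y : ν → K} (hxy : ∃ i j, x i * y j - x j * y i ≠ 0) {a b c d : K}
    (h1 : ∀ i, a * pol G x x (Pi.single i 1) + 2 * b * pol G x y (Pi.single i 1) +
      c * pol G y y (Pi.single i 1) = 0)
    (h2 : ∀ i, b * pol G x x (Pi.single i 1) + 2 * c * pol G x y (Pi.single i 1) +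
      d * pol G y y (Pi.single i 1) = 0) : a = 0 ∧ b = 0 ∧ c = 0 ∧ d = 0 := by
  by_contra hne
  obtain ⟨s, t, u, v, h3, h4, h5, h6⟩ := exists_st a b c d hne
  have h7 := h.eq_zero (s • x + t • y) fun i => by
    rw [pol_line2, h4, h6, mul_assoc 2 s t, h5]
    linear_combination u * h1 i + v * h2 i
  obtain ⟨i, j, hij⟩ := hxy
  have e1 : s * x i + t * y i = 0 := congrFun h7 i
  have e2 : s * x j + t * y j = 0 := congrFun h7 j
  refine h3 ⟨(mul_eq_zero.1 ?_).resolve_right hij, (mul_eq_zero.1 ?_).resolve_right hij⟩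
  · linear_combination y j * e1 - y i * e2
  · linear_combination x i * e2 - x j * e1

/-- **lines are unobstructed** -/
theorem SmC.rank (h : SmC G) {K : Type*} [Field K] [Algebra k K]
    {x y : ν → K} (hxy : ∃ i j, x i * y j - x j * y i ≠ 0) {a b c d : K}
    (h1 : ∀ i, a * pol G x x (Pi.single i 1) + 2 * b * pol G x y (Pi.single i 1) +
      c * pol G y y (Pi.single i 1) = 0)
    (h2 : ∀ i, b * pol G x x (Pi.single i 1) + 2 * c * pol G x y (Pi.single i 1) +
      d * pol G y y (Pi.single i 1) = 0) : a = 0 ∧ b = 0 ∧ c = 0 ∧ d = 0 := by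
  set L := AlgebraicClosure K
  set ψ : K →ₐ[k] L := IsScalarTower.toAlgHom k K L with hψ
  have hinj : Function.Injective ψ := ψ.toRingHom.injective
  have hs : ∀ i, (ψ ∘ (Pi.single i 1 : ν → K)) = Pi.single i 1 := by
    intro i
    funext j
    by_cases hj : j = i
    · subst hj; simp
    · simp [Pi.single_eq_of_ne hj]
  obtain ⟨i, j, hij⟩ := hxy
  obtain ⟨e1, e2, e3, e4⟩ := h.rank_aux (K := L) (x := ψ ∘ x) (y := ψ ∘ y)
    (a := ψ a) (b := ψ b) (c := ψ c) (d := ψ d) ⟨i, j, by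
      simp only [Function.comp_apply, ← map_mul, ← map_sub]
      exact (map_ne_zero_iff ψ hinj).2 hij⟩
    (fun i => by
      have := congrArg ψ (h1 i)
      simpa only [map_add, map_mul, algHom_pol, hs, map_zero, map_ofNat] using this)
    (fun i => by
      have := congrArg ψ (h2 i)
      simpa only [map_add, map_mul, algHom_pol, hs, map_zero, map_ofNat] using this)
  exact ⟨(map_eq_zero_iff ψ hinj).1 e1, (map_eq_zero_iff ψ hinj).1 e2,
    (map_eq_zero_iff ψ hinj).1 e3, (map_eq_zero_iff ψ hinj).1 e4⟩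

section tangent

variable {K : Type*} [CommRing K] [Algebra k K]

/-- the four equations of a frame -/
def eqs (G : MvPolynomial ν k) (x y : ν → K) : Fin 4 → K :=
  ![pol G x x x, pol G x x y, pol G x y y, pol G y y y]

/-- their differential -/
def tan (G : MvPolynomial ν k) (x y : ν → K) : (ν ⊕ ν → K) →ₗ[K] (Fin 4 → K) :=
  LinearMap.pi ![(3 : K) • (pol G x x).comp (LinearMap.funLeft K K Sum.inl),
    (2 : K) • (pol G x y).comp (LinearMap.funLeft K K Sum.inl) +
      (pol G x x).comp (LinearMap.funLeft K K Sum.inr),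
    (pol G y y).comp (LinearMap.funLeft K K Sum.inl) +
      (2 : K) • (pol G x y).comp (LinearMap.funLeft K K Sum.inr),
    (3 : K) • (pol G y y).comp (LinearMap.funLeft K K Sum.inr)]

theorem tan_apply (G : MvPolynomial ν k) (x y : ν → K) (v : ν ⊕ ν → K) :
    tan G x y v = ![3 * pol G x x (v ∘ Sum.inl),
      2 * pol G x y (v ∘ Sum.inl) + pol G x x (v ∘ Sum.inr),
      pol G y y (v ∘ Sum.inl) + 2 * pol G x y (v ∘ Sum.inr), 3 * pol G y y (v ∘ Sum.inr)] := by
  funext i
  fin_cases i <;> rfl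

theorem deriv_eqs (G : MvPolynomial ν k) (D : Derivation k K K) (z : ν ⊕ ν → K) (i : Fin 4) :
    D (eqs G (z ∘ Sum.inl) (z ∘ Sum.inr) i) =
      tan G (z ∘ Sum.inl) (z ∘ Sum.inr) (D ∘ z) i := by
  rw [tan_apply]
  set x := z ∘ Sum.inl
  set y := z ∘ Sum.inr
  have hx : (D ∘ z) ∘ Sum.inl = D ∘ x := rfl
  have hy : (D ∘ z) ∘ Sum.inr = D ∘ y := rfl
  rw [hx, hy]
  fin_cases i
  · change D (pol G x x x) = 3 * pol G x x (D ∘ x)
    rw [deriv_pol', pol_13 G (D ∘ x), pol_23 G x (D ∘ x)]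
    ring
  · change D (pol G x x y) = 2 * pol G x y (D ∘ x) + pol G x x (D ∘ y)
    rw [deriv_pol', pol_13 G (D ∘ x), pol_23 G x (D ∘ x), pol_12 G y x]
    ring
  · change D (pol G x y y) = pol G y y (D ∘ x) + 2 * pol G x y (D ∘ y)
    rw [deriv_pol', pol_13 G (D ∘ x), pol_23 G x (D ∘ y)]
    ring
  · change D (pol G y y y) = 3 * pol G y y (D ∘ y)
    rw [deriv_pol', pol_13 G (D ∘ y), pol_23 G y (D ∘ y)]
    ring

theorem map_eqs {K' : Type*} [CommRing K'] [Algebra k K'] (ψ : K →ₐ[k] K') (G : MvPolynomial ν k)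
    (x y : ν → K) (i : Fin 4) : ψ (eqs G x y i) = eqs G (ψ ∘ x) (ψ ∘ y) i := by
  fin_cases i <;> exact algHom_pol G ψ _ _ _

end tangent

theorem SmC.tan_indep (h : SmC G) {K : Type*} [Field K] [Algebra k K]
    {x y : ν → K} (hxy : ∃ i j, x i * y j - x j * y i ≠ 0) (l : Fin 4 → K)
    (hl : ∀ v, ∑ i, l i * tan G x y v i = 0) : l = 0 := by
  have : CharZero K := charZero_of_injective_algebraMap (algebraMap k K).injective
  obtain ⟨e1, e2, e3, e4⟩ := h.rank hxy (a := 3 * l 0) (b := l 1) (c := l 2) (d := 3 * l 3)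
    (fun i => by
      have h1 := hl (Sum.elim (Pi.single i 1) 0)
      simp only [tan_apply, Fin.sum_univ_four, Sum.elim_comp_inl, Sum.elim_comp_inr, map_zero,
        Matrix.cons_val_zero, Matrix.cons_val_one, Matrix.cons_val] at h1
      linear_combination h1)
    (fun i => by
      have h1 := hl (Sum.elim 0 (Pi.single i 1))
      simp only [tan_apply, Fin.sum_univ_four, Sum.elim_comp_inl, Sum.elim_comp_inr, map_zero,
        Matrix.cons_val_zero, Matrix.cons_val_one, Matrix.cons_val] at h1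
      linear_combination h1)
  funext i
  fin_cases i
  · exact (mul_eq_zero.1 e1).resolve_left (by norm_num)
  · exact e2
  · exact e3
  · exact (mul_eq_zero.1 e4).resolve_left (by norm_num)

theorem range_eq_top_of_indep {K V : Type*} [Field K] [AddCommGroup V] [Module K V] {c : ℕ}
    (T : V →ₗ[K] (Fin c → K)) (h : ∀ l : Fin c → K, (∀ v, ∑ i, l i * T v i = 0) → l = 0) :
    LinearMap.range T = ⊤ := by
  by_contra hne
  obtain ⟨φ, hφ, hle⟩ := Submodule.exists_le_ker_of_lt_top _ (lt_top_iff_ne_top.2 hne)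
  have h1 := h (fun i => φ (Pi.single i 1)) fun v => by
    have h2 : φ (T v) = 0 := hle ⟨v, rfl⟩
    rw [← h2]
    conv_rhs => rw [← Finset.univ_sum_single (T v), map_sum]
    refine Finset.sum_congr rfl fun i _ => ?_
    rw [mul_comm, ← smul_eq_mul, ← map_smul, ← Pi.single_smul, smul_eq_mul, mul_one]
  apply hφ
  ext i
  exact congrFun h1 i

theorem SmC.tan_surj (h : SmC G) {K : Type*} [Field K] [Algebra k K]
    {x y : ν → K} (hxy : ∃ i j, x i * y j - x j * y i ≠ 0) : LinearMap.range (tan G x y) = ⊤ :=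
  range_eq_top_of_indep _ (h.tan_indep hxy)

/-- the first point -/
def xx (k ν : Type) [Field k] : ν → MvPolynomial (ν ⊕ ν) k := fun i => X (Sum.inl i)

/-- the second point -/
def yy (k ν : Type) [Field k] : ν → MvPolynomial (ν ⊕ ν) k := fun i => X (Sum.inr i)

/-- the Pluecker coordinates -/
def plk (k : Type) [Field k] {ν : Type} (ij : ν × ν) : MvPolynomial (ν ⊕ ν) k :=
  xx k ν ij.1 * yy k ν ij.2 - xx k ν ij.2 * yy k ν ij.1

section ev

variable {K : Type*} [CommRing K] [Algebra k K] (z : ν ⊕ ν → K)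

theorem aeval_xx : (aeval z : MvPolynomial (ν ⊕ ν) k →ₐ[k] K) ∘ xx k ν = z ∘ Sum.inl := by
  funext i; simp [xx]

theorem aeval_yy : (aeval z : MvPolynomial (ν ⊕ ν) k →ₐ[k] K) ∘ yy k ν = z ∘ Sum.inr := by
  funext i; simp [yy]

theorem aeval_eqs (G : MvPolynomial ν k) (i : Fin 4) :
    aeval z (eqs G (xx k ν) (yy k ν) i) = eqs G (z ∘ Sum.inl) (z ∘ Sum.inr) i := by
  rw [map_eqs, aeval_xx, aeval_yy]

theorem aeval_plk (ij : ν × ν) : aeval z (plk k ij) =
    z (Sum.inl ij.1) * z (Sum.inr ij.2) - z (Sum.inl ij.2) * z (Sum.inr ij.1) := by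
  simp [plk, xx, yy]

end ev

theorem eval_eqs (z : ν ⊕ ν → k) (G : MvPolynomial ν k) (i : Fin 4) :
    eval z (eqs G (xx k ν) (yy k ν) i) = eqs G (z ∘ Sum.inl) (z ∘ Sum.inr) i := by
  rw [← coe_aeval_eq_eval]; exact aeval_eqs z G i

theorem eval_plk (z : ν ⊕ ν → k) (ij : ν × ν) : eval z (plk k ij) =
    z (Sum.inl ij.1) * z (Sum.inr ij.2) - z (Sum.inl ij.2) * z (Sum.inr ij.1) := by
  simp [plk, xx, yy]

theorem snd_pol (G : MvPolynomial ν k) (u v w : ν → DualNumber k) :
    (pol G u v w).snd =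
      pol G (fun i => (u i).snd) (fun i => (v i).fst) (fun i => (w i).fst) +
      pol G (fun i => (u i).fst) (fun i => (v i).snd) (fun i => (w i).fst) +
      pol G (fun i => (u i).fst) (fun i => (v i).fst) (fun i => (w i).snd) := by
  simp only [pol_apply, TrivSqZeroExt.snd_sum, ← Finset.sum_add_distrib]
  refine Finset.sum_congr rfl fun i _ => Finset.sum_congr rfl fun j _ =>
    Finset.sum_congr rfl fun l _ => ?_
  simp only [TrivSqZeroExt.snd_mul, TrivSqZeroExt.fst_mul, TrivSqZeroExt.algebraMap_eq_inl,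
    TrivSqZeroExt.fst_inl, TrivSqZeroExt.snd_inl, smul_eq_mul, MulOpposite.smul_eq_mul_unop,
    MulOpposite.unop_op, Algebra.algebraMap_self, RingHom.id_apply]
  ring

theorem dv_eqs (G : MvPolynomial ν k) (z v : ν ⊕ ν → k) (i : Fin 4) :
    dv z v (eqs G (xx k ν) (yy k ν) i) = tan G (z ∘ Sum.inl) (z ∘ Sum.inr) v i := by
  rw [dv, aeval_eqs, tan_apply]
  set x := z ∘ Sum.inl
  set y := z ∘ Sum.inr
  set u := v ∘ Sum.inl
  set w := v ∘ Sum.inr
  have e1 : (fun i => ((pt z v ∘ Sum.inl) i).fst) = x := by funext i; simp [x]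
  have e2 : (fun i => ((pt z v ∘ Sum.inr) i).fst) = y := by funext i; simp [y]
  have e3 : (fun i => ((pt z v ∘ Sum.inl) i).snd) = u := by funext i; simp [u]
  have e4 : (fun i => ((pt z v ∘ Sum.inr) i).snd) = w := by funext i; simp [w]
  fin_cases i
  · change TrivSqZeroExt.snd (pol G (pt z v ∘ Sum.inl) (pt z v ∘ Sum.inl) (pt z v ∘ Sum.inl)) =
      3 * pol G x x u
    rw [snd_pol, e1, e3, pol_13 G u, pol_23 G x u]
    ring
  · change TrivSqZeroExt.snd (pol G (pt z v ∘ Sum.inl) (pt z v ∘ Sum.inl) (pt z v ∘ Sum.inr)) =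
      2 * pol G x y u + pol G x x w
    rw [snd_pol, e1, e2, e3, e4, pol_13 G u, pol_23 G x u, pol_12 G y x]
    ring
  · change TrivSqZeroExt.snd (pol G (pt z v ∘ Sum.inl) (pt z v ∘ Sum.inr) (pt z v ∘ Sum.inr)) =
      pol G y y u + 2 * pol G x y w
    rw [snd_pol, e1, e2, e3, e4, pol_13 G u, pol_23 G x w]
    ring
  · change TrivSqZeroExt.snd (pol G (pt z v ∘ Sum.inr) (pt z v ∘ Sum.inr) (pt z v ∘ Sum.inr)) =
      3 * pol G y y w
    rw [snd_pol, e2, e4, pol_13 G w, pol_23 G y w]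
    ring



theorem eqs_whom {M : Type*} [AddCommMonoid M] (G : MvPolynomial ν k) {w : ν ⊕ ν → M} {a b : M}
    (ha : ∀ i, w (Sum.inl i) = a) (hb : ∀ i, w (Sum.inr i) = b) (i : Fin 4) :
    (eqs G (xx k ν) (yy k ν) i).IsWeightedHomogeneous w ((3 - i.val) • a + i.val • b) := by
  have hx : ∀ i, (xx k ν i).IsWeightedHomogeneous w a := fun i =>
    ha i ▸ isWeightedHomogeneous_X k w (Sum.inl i)
  have hy : ∀ i, (yy k ν i).IsWeightedHomogeneous w b := fun i =>
    hb i ▸ isWeightedHomogeneous_X k w (Sum.inr i)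
  fin_cases i
  · have e : a + (a + a) = (3 - 0) • a + 0 • b := by simp [succ_nsmul, add_assoc]
    exact e ▸ pol_whom G hx hx hx
  · have e : a + (a + b) = (3 - 1) • a + 1 • b := by simp [succ_nsmul, add_assoc]
    exact e ▸ pol_whom G hx hx hy
  · have e : a + (b + b) = (3 - 2) • a + 2 • b := by simp [succ_nsmul]
    exact e ▸ pol_whom G hx hy hy
  · have e : b + (b + b) = (3 - 3) • a + 3 • b := by simp [succ_nsmul, add_assoc]
    exact e ▸ pol_whom G hy hy hy

theorem plk_whom {M : Type*} [AddCommMonoid M] {w : ν ⊕ ν → M} {a b : M}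
    (ha : ∀ i, w (Sum.inl i) = a) (hb : ∀ i, w (Sum.inr i) = b) (ij : ν × ν) :
    (plk k ij).IsWeightedHomogeneous w (a + b) := by
  have hx : ∀ i, (xx k ν i).IsWeightedHomogeneous w a := fun i =>
    ha i ▸ isWeightedHomogeneous_X k w (Sum.inl i)
  have hy : ∀ i, (yy k ν i).IsWeightedHomogeneous w b := fun i =>
    hb i ▸ isWeightedHomogeneous_X k w (Sum.inr i)
  exact (weightedHomogeneousSubmodule k w (a + b)).sub_mem ((hx _).mul (hy _)) ((hx _).mul (hy _))

theorem SmC.height_six (h : SmC G) (hν : Fintype.card ν = 6) (Q : Ideal (MvPolynomial (ν ⊕ ν) k))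
    [Q.IsPrime] (h1 : eqs G (xx k ν) (yy k ν) 0 ∈ Q) (h2 : ∀ ij, plk k ij ∈ Q) :
    ((4 + 2 : ℕ) : ℕ∞) ≤ Q.height := by
  set K := FractionRing (MvPolynomial (ν ⊕ ν) k ⧸ Q) with hK
  set x : ν → K := gen Q ∘ Sum.inl with hx
  set y : ν → K := gen Q ∘ Sum.inr with hy
  have : CharZero K := charZero_of_injective_algebraMap (algebraMap k K).injective
  have hp : ∀ i j, x i * y j - x j * y i = 0 := fun i j => by
    have := (aeval_gen_eq_zero Q _).2 (h2 (i, j))
    rwa [aeval_plk] at this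
  by_cases hx0 : x = 0
  · let T : (ν → K) →ₗ[K] (ν ⊕ ν → K) :=
      { toFun := fun v => Sum.elim 0 v
        map_add' := fun a b => by funext s; cases s <;> simp
        map_smul' := fun a b => by funext s; cases s <;> simp }
    refine le_height Q (LinearMap.range T) (fun D => ⟨D ∘ y, ?_⟩) ?_
    · funext s
      cases s with
      | inl i =>
        have : gen Q (Sum.inl i) = 0 := congrFun hx0 i
        simp [T, this]
      | inr i => rfl
    · have h3 := LinearMap.finrank_range_le T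
      rw [Module.finrank_fintype_fun_eq_card, hν] at h3
      rw [Fintype.card_sum, hν]
      exact Nat.add_le_add_right h3 _
  · obtain ⟨i0, hi0⟩ := Function.ne_iff.1 hx0
    have hi0' : x i0 ≠ 0 := hi0
    set c := y i0 / x i0 with hc
    have hyc : ∀ j, y j = c * x j := fun j => by
      rw [hc, div_mul_eq_mul_div, eq_div_iff hi0']
      linear_combination hp i0 j
    set N := LinearMap.ker (pol G x x) with hN
    let T : (N × K) →ₗ[K] (ν ⊕ ν → K) :=
      { toFun := fun v => Sum.elim v.1.1 (v.2 • x + c • v.1.1)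
        map_add' := fun a b => by
          funext s
          cases s with
          | inl i => simp
          | inr i => simp; ring
        map_smul' := fun a b => by
          funext s
          cases s with
          | inl i => simp
          | inr i => simp; ring }
    refine le_height Q (LinearMap.range T) (fun D => ⟨(⟨D ∘ x, ?_⟩, D c), ?_⟩) ?_
    · have h3 := (aeval_gen_eq_zero Q _).2 h1
      rw [aeval_eqs] at h3
      have h4 := deriv_eqs G D (gen Q) 0
      rw [h3, map_zero, tan_apply] at h4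
      exact (mul_eq_zero.1 h4.symm).resolve_left (by norm_num)
    · funext s
      cases s with
      | inl i => rfl
      | inr i =>
        change D c * x i + c * D (x i) = D (y i)
        rw [hyc, Derivation.leibniz, smul_eq_mul, smul_eq_mul]
        ring
    · have h3 := LinearMap.finrank_range_le T
      have h4 : N < ⊤ := by
        rw [lt_top_iff_ne_top]
        intro htop
        refine hx0 (h.eq_zero x fun i => ?_)
        have : (Pi.single i 1 : ν → K) ∈ N := by rw [htop]; trivial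
        exact this
      have h5 := Submodule.finrank_lt_finrank_of_lt h4
      rw [finrank_top, Module.finrank_fintype_fun_eq_card, hν] at h5
      rw [Module.finrank_prod, Module.finrank_self] at h3
      rw [Fintype.card_sum, hν]
      have h6 : Module.finrank K (LinearMap.range T) ≤ 6 := by omega
      exact Nat.add_le_add_right h6 _

theorem SmC.height_four (h : SmC G) (hν : Fintype.card ν = 6) (Q : Ideal (MvPolynomial (ν ⊕ ν) k))
    [Q.IsPrime] (h1 : ∀ i, eqs G (xx k ν) (yy k ν) i ∈ Q) : ((4 : ℕ) : ℕ∞) ≤ Q.height := by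
  by_cases h2 : ∀ ij : ν × ν, plk k ij ∈ Q
  · exact le_trans (by exact_mod_cast (by norm_num : 4 ≤ 4 + 2)) (h.height_six hν Q (h1 0) h2)
  push Not at h2
  obtain ⟨ij, hij⟩ := h2
  rw [← aeval_gen_eq_zero, aeval_plk] at hij
  set T := tan G (gen Q ∘ Sum.inl) (gen Q ∘ Sum.inr) with hT
  refine le_height Q (LinearMap.ker T) (fun D => ?_) ?_
  · funext i
    have h3 := (aeval_gen_eq_zero Q _).2 (h1 i)
    rw [aeval_eqs] at h3
    have h4 := deriv_eqs G D (gen Q) i
    rw [h3, map_zero] at h4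
    exact h4.symm
  · have h3 := LinearMap.finrank_range_add_finrank_ker T
    rw [h.tan_surj ⟨ij.1, ij.2, hij⟩, finrank_top, Module.finrank_fintype_fun_eq_card,
      Module.finrank_fintype_fun_eq_card, Fintype.card_fin] at h3
    rw [← h3, add_comm]

/-- **the cone of frames** -/
def SmC.frames (h : SmC G) (hν : Fintype.card ν = 6) : CI k (ν ⊕ ν) 4 (ν × ν) where
  f := eqs G (xx k ν) (yy k ν)
  p := plk k
  e := 2
  e_pos := two_pos
  f_hom i := ⟨3, three_pos, by
    have := eqs_whom G (w := 1) (a := 1) (b := 1) (fun _ => rfl) (fun _ => rfl) i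
    convert this using 1
    fin_cases i <;> rfl⟩
  p_hom ij := plk_whom (w := 1) (a := 1) (b := 1) (fun _ => rfl) (fun _ => rfl) ij
  h1 Q _ hQ := h.height_four hν Q hQ
  h2 Q _ hQ hp := h.height_six hν Q (hQ 0) hp
  jac z _ hz l hl := by
    obtain ⟨ij, hij⟩ := hz
    rw [eval_plk] at hij
    refine h.tan_indep (x := z ∘ Sum.inl) (y := z ∘ Sum.inr) ⟨ij.1, ij.2, hij⟩ l fun v => ?_
    rw [← hl v]
    exact Finset.sum_congr rfl fun i _ => by rw [dv_eqs]


theorem SmC.ne_zero (h : SmC G) [Nonempty ν] : G ≠ 0 := by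
  rintro rfl
  obtain ⟨i, hi⟩ := h.sm 1 one_ne_zero (by simp)
  simp at hi


end

end Crest.Agent.X262.Fano21
end

-- ▼ part X262/Fano21/Seq
section

/-!
# Row 262, FANO-ALG (helper21), part 6: the regular sequence `xxx, xxy, xyy, yyy, p, ℓ`

* `WR.snoc`, `CI.sat_sup` (a hypersurface section of the cone has no component in `V(p)`);
* `dim_quot_le` : dimension of a quotient of a polynomial ring from the height;
* `SmC.nz1`, `SmC.nz2`, `SmC.plk_not_mem`, `SmC.frames_prime`.
-/

set_option autoImplicit false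
set_option linter.unusedSectionVars false

open MvPolynomial RingTheory.Sequence

namespace Crest.Agent.X262.Fano21

noncomputable section

section gen

variable {k σ : Type} [Field k] [Fintype σ]

theorem WR.snoc [Infinite k] {L : List (MvPolynomial σ k)} (h : WR L) {a : MvPolynomial σ k}
    (ha : a ∈ mm k σ) (hV : ∀ Q : Ideal (MvPolynomial σ k), Q.IsPrime → Ideal.ofList L ≤ Q →
      a ∈ Q → ((L.length + 1 : ℕ) : ℕ∞) ≤ Q.height) : WR (L ++ [a]) := by
  obtain ⟨g, hg, hW⟩ := h.step (Submodule.span k {a}) (fun r hr => by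
      obtain ⟨c, rfl⟩ := Submodule.mem_span_singleton.1 hr
      rw [smul_eq_C_mul]
      exact Ideal.mul_mem_left _ _ ha)
    fun Q hQ h1 h2 => hV Q hQ h1 (h2 a (Submodule.mem_span_singleton_self a))
  obtain ⟨c, rfl⟩ := Submodule.mem_span_singleton.1 hg
  refine ⟨fun r hr => ?_, ?_⟩
  · rcases List.mem_append.1 hr with hr | hr
    · exact h.mem r hr
    · rw [List.mem_singleton.1 hr]; exact ha
  have h1 := hW.reg
  rw [List.map_append, isWeaklyRegular_append_iff] at h1 ⊢
  refine ⟨h1.1, ?_⟩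
  have h2 := h1.2
  simp only [List.map_cons, List.map_nil] at h2 ⊢
  rw [isWeaklyRegular_singleton_iff] at h2 ⊢
  rw [smul_eq_C_mul, map_mul] at h2
  exact h2.of_mul

theorem dim_quot_le (J : Ideal (MvPolynomial σ k)) {c n : ℕ} (hσ : Fintype.card σ = c + n)
    (hJ : ∀ Q : Ideal (MvPolynomial σ k), Q.IsPrime → J ≤ Q → (c : ℕ∞) ≤ Q.height) :
    ringKrullDim (MvPolynomial σ k ⧸ J) ≤ n := by
  rw [ringKrullDim_quotient, Order.krullDim]
  refine iSup_le fun p => ?_
  set p' := p.map (fun x => (x : PrimeSpectrum (MvPolynomial σ k))) (fun _ _ h => h) with hp'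
  have h1 : (p'.length : ℕ∞) ≤ Order.coheight p'.head := Order.length_le_coheight_head
  have h2 : (c : ℕ∞) ≤ Order.height p'.head := by
    rw [← PrimeSpectrum.height_eq_orderHeight]
    exact hJ _ inferInstance p.head.2
  have h3 : ringKrullDim (MvPolynomial σ k) = ((c + n : ℕ) : ℕ∞) := by
    rw [MvPolynomial.ringKrullDim_of_isNoetherianRing, ringKrullDim_eq_zero_of_field, zero_add,
      Nat.card_eq_fintype_card, hσ]
    rfl
  rw [ringKrullDim, Order.krullDim_eq_iSup_height_add_coheight_of_nonempty, WithBot.coe_inj] at h3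
  have h4 := (add_le_add h2 h1).trans ((le_iSup (fun a : PrimeSpectrum (MvPolynomial σ k) =>
    Order.height a + Order.coheight a) p'.head).trans h3.le)
  have h5 : c + p'.length ≤ c + n := by exact_mod_cast h4
  have h6 : p.length ≤ n := Nat.le_of_add_le_add_left h5
  exact_mod_cast h6

theorem exists_gen [CharZero k] (Q : Ideal (MvPolynomial σ k)) [Q.IsPrime] :
    ∃ (K : Type) (_ : Field K) (_ : Algebra k K) (z : σ → K), ∀ r, aeval z r = 0 ↔ r ∈ Q :=
  ⟨FractionRing (MvPolynomial σ k ⧸ Q), inferInstance, inferInstance, gen Q, aeval_gen_eq_zero Q⟩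

theorem le_height' [CharZero k] (Q : Ideal (MvPolynomial σ k)) [Q.IsPrime] {c : ℕ}
    (H : ∀ (K : Type) [Field K] [Algebra k K] (z : σ → K), (∀ r, aeval z r = 0 ↔ r ∈ Q) →
      ∃ W : Submodule K (σ → K), (∀ D : Derivation k K K, (fun s => D (z s)) ∈ W) ∧
        Module.finrank K W + c ≤ Fintype.card σ) : (c : ℕ∞) ≤ Q.height := by
  obtain ⟨W, h1, h2⟩ := H (FractionRing (MvPolynomial σ k ⧸ Q)) (gen Q) (aeval_gen_eq_zero Q)
  exact le_height Q W h1 h2

end gen

namespace CI

variable {k σ : Type} [Field k] [IsAlgClosed k] [CharZero k] [Fintype σ] {c : ℕ} {ι : Type}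
  (D : CI k σ c ι)

theorem nz {a : MvPolynomial σ k} (ha : a ∉ D.I) : Nz D.I a := fun _ hb =>
  (D.isPrime.mem_or_mem hb).resolve_left ha

theorem height_succ {a : MvPolynomial σ k} (ha : a ∉ D.I) {Q : Ideal (MvPolynomial σ k)}
    [Q.IsPrime] (h1 : D.I ≤ Q) (h2 : a ∈ Q) : ((c + 1 : ℕ) : ℕ∞) ≤ Q.height := by
  have := D.isPrime
  have h3 := D.h1 D.I this D.f_mem
  have h4 : D.I < Q := lt_of_le_of_ne h1 fun h => ha (h ▸ h2)
  have h5 := h3.trans_lt (Ideal.height_strict_mono_of_isPrime h4)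
  rw [Nat.cast_add, Nat.cast_one]
  exact Order.add_one_le_of_lt h5

theorem exists_nz_sup {a : MvPolynomial σ k} {d : ℕ} (hd : 0 < d) (h : a.IsHomogeneous d)
    (ha : a ∉ D.I) : ∃ b ∈ Submodule.span k (Set.range D.p), Nz (D.I ⊔ Ideal.span {a}) b := by
  obtain ⟨L, hlen, hL, -, hI⟩ := exists_WR_span D.f (fun i => D.I_le_mm (D.f_mem i)) D.h1
  have hI' : Ideal.ofList L = D.I := hI
  have hLa : WR (L ++ [a]) := hL.snoc (mem_mm_of_hom h hd) fun Q hQ h1 h2 => by
    rw [hlen]
    exact D.height_succ ha (hI' ▸ h1) h2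
  have hIa : Ideal.ofList (L ++ [a]) = D.I ⊔ Ideal.span {a} := by
    rw [Ideal.ofList_append, hI', Ideal.ofList_singleton]
  obtain ⟨b, hb, hLb⟩ := hLa.step (Submodule.span k (Set.range D.p))
    (fun r hr => mem_mm_of_hom (D.span_hom hr) D.e_pos) fun Q hQ h1 h2 => by
    refine le_trans ?_ (D.h2 Q hQ (fun i => h1 (hIa ▸ Ideal.mem_sup_left (D.f_mem i)))
      fun j => h2 _ (Submodule.subset_span ⟨j, rfl⟩))
    rw [List.length_append, hlen]
    exact le_of_eq (by simp [add_assoc])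
  refine ⟨b, hb, fun r hr => ?_⟩
  rw [← hIa] at hr ⊢
  refine hLb.nz ?_ hr
  rw [hIa]
  exact D.hom_I.sup (hom_span (by rintro _ rfl; exact ⟨_, h⟩))

/-- **saturation of a hypersurface section** -/
theorem sat_sup {a : MvPolynomial σ k} {d : ℕ} (hd : 0 < d) (h : a.IsHomogeneous d)
    (ha : a ∉ D.I) {r : MvPolynomial σ k}
    (hr : ∀ j, ∃ N : ℕ, D.p j ^ N * r ∈ D.I ⊔ Ideal.span {a}) : r ∈ D.I ⊔ Ideal.span {a} := by
  obtain ⟨b, hb, hn⟩ := D.exists_nz_sup hd h ha
  obtain ⟨n, h1⟩ := D.span_mem (J := ((D.I ⊔ Ideal.span {a}).colon {r}).radical) (fun j => by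
    obtain ⟨N, hN⟩ := hr j
    exact ⟨N, Submodule.mem_colon_singleton.2 hN⟩) hb
  exact hn.pow n r (Submodule.mem_colon_singleton.1 h1)

theorem eq_zero_of_lt {e d : ℕ} (hf : ∀ i, (D.f i).IsHomogeneous e) (hd : d < e)
    {a : MvPolynomial σ k} (h : a.IsHomogeneous d) (ha : a ∈ D.I) : a = 0 := by
  obtain ⟨u, hu⟩ := Ideal.mem_span_range_iff_exists_fun.1 ha
  rw [← hc_self h, ← hu, map_sum]
  exact Finset.sum_eq_zero fun i _ => by rw [mul_comm, hc_mul_lt (hf i) _ hd]

end CI

variable {k : Type} [Field k] [IsAlgClosed k] [CharZero k] {ν : Type} [Fintype ν] [DecidableEq ν]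
  {G : MvPolynomial ν k}

theorem eqs_hom (G : MvPolynomial ν k) (i : Fin 4) :
    (eqs G (xx k ν) (yy k ν) i).IsHomogeneous 3 := by
  have := eqs_whom G (w := 1) (a := 1) (b := 1) (fun _ => rfl) (fun _ => rfl) i
  convert this using 1
  fin_cases i <;> rfl

theorem plk_hom (ij : ν × ν) : (plk k ij).IsHomogeneous 2 :=
  plk_whom (w := 1) (a := 1) (b := 1) (fun _ => rfl) (fun _ => rfl) ij

theorem plk_ne_zero {i j : ν} (h : i ≠ j) : plk k (i, j) ≠ 0 := by
  intro h0
  have := eval_plk (k := k) (Sum.elim (Pi.single i 1) (Pi.single j 1)) (i, j)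
  rw [h0] at this
  simp [h, h.symm] at this



theorem SmC.plk_not_mem (h : SmC G) (hν : Fintype.card ν = 6) {i j : ν} (hij : i ≠ j) :
    plk k (i, j) ∉ (h.frames hν).I := fun h1 =>
  plk_ne_zero hij ((h.frames hν).eq_zero_of_lt (eqs_hom G) (by norm_num) (plk_hom _) h1)

theorem SmC.height_sub (h : SmC G) (hν : Fintype.card ν = 6) {j : ℕ} (hj : j + 1 ≤ 4)
    (Q : Ideal (MvPolynomial (ν ⊕ ν) k)) [Q.IsPrime]
    (h1 : ∀ i : Fin (j + 1), eqs G (xx k ν) (yy k ν) (Fin.castLE hj i) ∈ Q) :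
    ((j + 1 : ℕ) : ℕ∞) ≤ Q.height := by
  by_cases h2 : ∀ ij : ν × ν, plk k ij ∈ Q
  · exact le_trans (by exact_mod_cast (by omega : j + 1 ≤ 4 + 2)) (h.height_six hν Q (h1 0) h2)
  push Not at h2
  obtain ⟨ij, hij⟩ := h2
  rw [← aeval_gen_eq_zero, aeval_plk] at hij
  set K := FractionRing (MvPolynomial (ν ⊕ ν) k ⧸ Q)
  set T := (LinearMap.funLeft K K (Fin.castLE hj)).comp
    (tan G (gen Q ∘ Sum.inl) (gen Q ∘ Sum.inr)) with hT
  refine le_height Q (LinearMap.ker T) (fun D => ?_) ?_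
  · funext i
    have h3 := (aeval_gen_eq_zero Q _).2 (h1 i)
    rw [aeval_eqs] at h3
    have h4 := deriv_eqs G D (gen Q) (Fin.castLE hj i)
    rw [h3, map_zero] at h4
    exact h4.symm
  · have h3 := LinearMap.finrank_range_add_finrank_ker T
    have h4 : LinearMap.range T = ⊤ := by
      rw [hT, LinearMap.range_comp, h.tan_surj ⟨ij.1, ij.2, hij⟩, Submodule.map_top,
        LinearMap.range_eq_top]
      exact LinearMap.funLeft_surjective_of_injective _ _ _ (Fin.castLE_injective hj)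
    rw [h4, finrank_top, Module.finrank_fintype_fun_eq_card,
      Module.finrank_fintype_fun_eq_card, Fintype.card_fin] at h3
    rw [← h3, add_comm]

theorem SmC.wr3 (h : SmC G) (hν : Fintype.card ν = 6) :
    WR ([eqs G (xx k ν) (yy k ν) 0] ++ [eqs G (xx k ν) (yy k ν) 1] ++
      [eqs G (xx k ν) (yy k ν) 2]) := by
  have hm : ∀ i, eqs G (xx k ν) (yy k ν) i ∈ mm k (ν ⊕ ν) := fun i =>
    mem_mm_of_hom (eqs_hom G i) three_pos
  have w0 : WR ([] ++ [eqs G (xx k ν) (yy k ν) 0]) := WR.nil.snoc (hm 0) fun Q hQ _ h2 =>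
    h.height_sub hν (j := 0) (by norm_num) Q fun i => by
      fin_cases i
      exact h2
  have w1 := w0.snoc (hm 1) fun Q hQ h1 h2 =>
    h.height_sub hν (j := 1) (by norm_num) Q fun i => by
      fin_cases i
      · exact h1 (Ideal.subset_span (by simp))
      · exact h2
  exact w1.snoc (hm 2) fun Q hQ h1 h2 =>
    h.height_sub hν (j := 2) (by norm_num) Q fun i => by
      fin_cases i
      · exact h1 (Ideal.subset_span (by simp))
      · exact h1 (Ideal.subset_span (by simp))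
      · exact h2

theorem SmC.eqs0_ne (h : SmC G) (hν : Fintype.card ν = 6) : eqs G (xx k ν) (yy k ν) 0 ≠ 0 := by
  intro h0
  have h1 : WR ([] ++ [eqs G (xx k ν) (yy k ν) 0]) := (h.wr3 hν).init.init
  exact h1.not_mem (h0 ▸ Ideal.zero_mem _)

theorem SmC.nz1 (h : SmC G) (hν : Fintype.card ν = 6) :
    Nz (Ideal.span {eqs G (xx k ν) (yy k ν) 0}) (eqs G (xx k ν) (yy k ν) 1) := by
  intro r hr
  rw [← Ideal.ofList_singleton] at hr ⊢
  refine (h.wr3 hν).init.nz (hom_span fun r hr => ?_) hr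
  rw [List.mem_singleton.1 hr]
  exact ⟨3, eqs_hom G 0⟩

theorem SmC.nz2 (h : SmC G) (hν : Fintype.card ν = 6) :
    Nz (Ideal.span {eqs G (xx k ν) (yy k ν) 0, eqs G (xx k ν) (yy k ν) 1})
      (eqs G (xx k ν) (yy k ν) 2) := by
  intro r hr
  have e : Ideal.span {eqs G (xx k ν) (yy k ν) 0, eqs G (xx k ν) (yy k ν) 1} =
      Ideal.ofList ([eqs G (xx k ν) (yy k ν) 0] ++ [eqs G (xx k ν) (yy k ν) 1]) := by
    rw [Ideal.ofList_append, Ideal.ofList_singleton, Ideal.ofList_singleton, Ideal.span_insert]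
  rw [e] at hr ⊢
  refine (h.wr3 hν).nz ?_ hr
  rw [← e]
  refine hom_span ?_
  rintro _ (rfl | rfl)
  · exact ⟨3, eqs_hom G 0⟩
  · exact ⟨3, eqs_hom G 1⟩

end

end Crest.Agent.X262.Fano21
end

-- ▼ part X262/Fano21/Chart

/-!
# Row 262, FANO-ALG (helper21), part 7: the outputs

* `rsqStmt : Rig38.RSqStmt`;
* `chart_prime`, `chart_isDomain`, `chart_dim` : the standard chart of the variety of lines of a
  smooth cubic fourfold is an integral variety of dimension at most four;
* `chart_gen` : a generic point.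
-/

set_option autoImplicit false
set_option linter.unusedSectionVars false

open MvPolynomial

namespace Crest.Agent.X262.Fano21

open Crest.AlgGeometry
open Rig38 (ten tri pv qv pX qX OnL PP II RSq RSqStmt)

noncomputable section

variable {G : MvPolynomial (Fin 6) ℂ}

theorem ten_eq (G : MvPolynomial (Fin 6) ℂ) (i j l : Fin 6) : ten G i j l = cf G i j l := by
  rw [ten, cf, constantCoeff_eq, Rat.smul_def]
  norm_num

theorem tri_eq {A : Type} [CommRing A] [Algebra ℂ A] (G : MvPolynomial (Fin 6) ℂ)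
    (u v w : Fin 6 → A) : tri (ten G) u v w = pol G u v w := by
  simp only [tri, pol_apply, ten_eq, mul_assoc]

theorem onL_iff_eqs {A : Type} [CommRing A] [Algebra ℂ A] (G : MvPolynomial (Fin 6) ℂ)
    (u v : Fin 6 → A) : OnL (ten G) u v ↔ ∀ i, eqs G u v i = 0 := by
  constructor
  · intro h i
    fin_cases i
    exacts [(tri_eq G _ _ _).symm.trans h.h0, (tri_eq G _ _ _).symm.trans h.h1,
      (tri_eq G _ _ _).symm.trans h.h2, (tri_eq G _ _ _).symm.trans h.h3]
  · intro h
    exact ⟨(tri_eq G _ _ _).trans (h 0), (tri_eq G _ _ _).trans (h 1),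
      (tri_eq G _ _ _).trans (h 2), (tri_eq G _ _ _).trans (h 3)⟩

theorem card6 : Fintype.card (Fin 6) = 6 := Fintype.card_fin 6

section rsq

/-- the two ways to index the variables -/
def ev : Fin 6 ⊕ Fin 6 ≃ Fin 2 × Fin 6 where
  toFun := Sum.elim (fun i => (0, i)) (fun i => (1, i))
  invFun := fun m => if m.1 = 0 then Sum.inl m.2 else Sum.inr m.2
  left_inv := by rintro (i | i) <;> simp
  right_inv := by
    rintro ⟨a, i⟩
    fin_cases a <;> simp

/-- the two polynomial rings -/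
def eP : MvPolynomial (Fin 6 ⊕ Fin 6) ℂ ≃ₐ[ℂ] PP := renameEquiv ℂ ev

theorem eP_xx : (eP.toAlgHom ∘ xx ℂ (Fin 6)) = Rig38.xx := by
  funext i
  simp [eP, xx, Rig38.xx, ev]

theorem eP_yy : (eP.toAlgHom ∘ yy ℂ (Fin 6)) = Rig38.yy := by
  funext i
  simp [eP, yy, Rig38.yy, ev]

theorem eP_eqs (G : MvPolynomial (Fin 6) ℂ) (i : Fin 4) :
    eP (eqs G (xx ℂ _) (yy ℂ _) i) = eqs G Rig38.xx Rig38.yy i := by
  rw [← eP_xx, ← eP_yy, ← map_eqs]
  rfl

theorem eP_plk (i j : Fin 6) : eP (plk ℂ (i, j)) = Rig38.plk Rig38.xx Rig38.yy i j := by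
  rw [← eP_xx, ← eP_yy]
  simp [plk, Rig38.plk]

theorem eP_mem (J : Ideal (MvPolynomial (Fin 6 ⊕ Fin 6) ℂ))
    (r : MvPolynomial (Fin 6 ⊕ Fin 6) ℂ) : eP r ∈ J.map eP ↔ r ∈ J :=
  Ideal.apply_mem_of_equiv_iff (f := eP.toRingEquiv)

theorem Nz.eP {J : Ideal (MvPolynomial (Fin 6 ⊕ Fin 6) ℂ)} {a : MvPolynomial (Fin 6 ⊕ Fin 6) ℂ}
    (h : Nz J a) : Nz (J.map eP) (eP a) := by
  intro r hr
  obtain ⟨r, rfl⟩ := Fano21.eP.surjective r
  rw [← map_mul, eP_mem] at hr
  exact (eP_mem _ _).2 (h r hr)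

theorem II_eq (G : MvPolynomial (Fin 6) ℂ) :
    II (ten G) = (Ideal.span (Set.range (eqs G (xx ℂ _) (yy ℂ _)))).map eP := by
  rw [Ideal.map_span, ← Set.range_comp, II]
  congr 1
  have : ⇑eP ∘ eqs G (xx ℂ _) (yy ℂ _) = eqs G Rig38.xx Rig38.yy := funext (eP_eqs G)
  rw [this]
  ext x
  simp only [Set.mem_insert_iff, Set.mem_singleton_iff, Set.mem_range, tri_eq]
  constructor
  · rintro (rfl | rfl | rfl | rfl)
    exacts [⟨0, rfl⟩, ⟨1, rfl⟩, ⟨2, rfl⟩, ⟨3, rfl⟩]
  · rintro ⟨i, rfl⟩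
    fin_cases i
    exacts [Or.inl rfl, Or.inr (Or.inl rfl), Or.inr (Or.inr (Or.inl rfl)),
      Or.inr (Or.inr (Or.inr rfl))]


theorem SmC.rsq (h : SmC G) : RSq (ten G) where
  ne := by
    rw [tri_eq]
    have := (map_ne_zero_iff eP eP.injective).2 (h.eqs0_ne card6)
    rwa [eP_eqs] at this
  n1 := by
    have := (h.nz1 card6).eP
    rw [Ideal.map_span, Set.image_singleton, eP_eqs, eP_eqs] at this
    simp only [tri_eq]
    exact this
  n2 := by
    have := (h.nz2 card6).eP
    rw [Ideal.map_span, Set.image_pair, eP_eqs, eP_eqs, eP_eqs] at this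
    simp only [tri_eq]
    exact this
  nz := by
    have := ((h.frames card6).nz (h.plk_not_mem card6 (i := 0) (j := 1) (by decide))).eP
    rw [eP_plk] at this
    rw [II_eq]
    exact this
  s2 r N hr := by
    obtain ⟨r, rfl⟩ := eP.surjective r
    have e : II (ten G) ⊔ Ideal.span {Rig38.plk Rig38.xx Rig38.yy 0 1} =
        ((h.frames card6).I ⊔ Ideal.span {plk ℂ (0, 1)}).map eP := by
      rw [Ideal.map_sup, Ideal.map_span, Set.image_singleton, eP_plk, II_eq]
      rfl
    rw [e] at hr ⊢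
    rw [eP_mem]
    refine (h.frames card6).sat_sup two_pos (plk_hom _)
      (h.plk_not_mem card6 (by decide)) fun ij => ⟨N, ?_⟩
    have := hr ij.1 ij.2
    rwa [← eP_plk, ← map_pow, ← map_mul, eP_mem] at this

/-- **the input of RIG** -/
theorem rsqStmt : RSqStmt := fun _ h1 h2 => SmC.rsq ⟨h1, h2⟩

end rsq

section chart

theorem chart_iff (hG : G.IsHomogeneous 3) {A : Type} [CommRing A] [Algebra ℂ A] (a : Fin 8 → A) :
    (∀ r ∈ fanoChartIdeal G, aeval a r = 0) ↔ ∀ i, eqs G (pv a) (qv a) i = 0 := by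
  rw [← Rig38.onL_iff hG, onL_iff_eqs]

theorem algHom_pv {A B : Type} [CommRing A] [Algebra ℂ A] [CommRing B] [Algebra ℂ B]
    (f : A →ₐ[ℂ] B) (a : Fin 8 → A) : f ∘ pv a = pv (f ∘ a) :=
  funext fun l => Rig38.pv_map f.toRingHom a l

theorem algHom_qv {A B : Type} [CommRing A] [Algebra ℂ A] [CommRing B] [Algebra ℂ B]
    (f : A →ₐ[ℂ] B) (a : Fin 8 → A) : f ∘ qv a = qv (f ∘ a) :=
  funext fun l => Rig38.qv_map f.toRingHom a l

theorem aeval_mk (J : Ideal (MvPolynomial (Fin 8) ℂ)) (r : MvPolynomial (Fin 8) ℂ) :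
    aeval (Ideal.Quotient.mkₐ ℂ J ∘ X) r = Ideal.Quotient.mk J r := by
  have : aeval (Ideal.Quotient.mkₐ ℂ J ∘ X) = Ideal.Quotient.mkₐ ℂ J := by
    apply MvPolynomial.algHom_ext
    intro s
    simp
  rw [this]
  rfl

theorem eqs_mem_chart (hG : G.IsHomogeneous 3) (i : Fin 4) :
    eqs G pX qX i ∈ fanoChartIdeal G := by
  have := (chart_iff hG (Ideal.Quotient.mkₐ ℂ (fanoChartIdeal G) ∘ X)).1
    (fun r hr => by rw [aeval_mk, Ideal.Quotient.eq_zero_iff_mem]; exact hr) i
  rwa [← algHom_pv, ← algHom_qv, ← map_eqs, Ideal.Quotient.mkₐ_eq_mk,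
    Ideal.Quotient.eq_zero_iff_mem] at this


theorem eqs_comb {K : Type*} [CommRing K] [Algebra ℂ K] {x y : Fin 6 → K}
    (h : ∀ i, eqs G x y i = 0) (a b c d : K) (i : Fin 4) :
    eqs G (a • x + b • y) (c • x + d • y) i = 0 := by
  have h0 : pol G x x x = 0 := h 0
  have h1 : pol G x x y = 0 := h 1
  have h2 : pol G x y y = 0 := h 2
  have h3 : pol G y y y = 0 := h 3
  have key : ∀ a b c d e f : K, pol G (a • x + b • y) (c • x + d • y) (e • x + f • y) = 0 := by
    intro a b c d e f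
    simp only [map_add, map_smul, LinearMap.add_apply, LinearMap.smul_apply, smul_eq_mul]
    rw [pol_23 G x y x, pol_12 G y x x, pol_23 G x y x, pol_12 G y x y, pol_13 G y y x, h0, h1, h2,
      h3]
    ring
  fin_cases i <;> exact key ..

/-- the numerators of the normalised frame -/
def num {K : Type*} [CommRing K] (x y : Fin 6 → K) : Fin 8 → K :=
  ![y 1 * x 2 - x 1 * y 2, y 1 * x 3 - x 1 * y 3, y 1 * x 4 - x 1 * y 4, y 1 * x 5 - x 1 * y 5,
    x 0 * y 2 - y 0 * x 2, x 0 * y 3 - y 0 * x 3, x 0 * y 4 - y 0 * x 4, x 0 * y 5 - y 0 * x 5]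

theorem map_num {K K' : Type*} [CommRing K] [CommRing K'] [Algebra ℂ K] [Algebra ℂ K']
    (f : K →ₐ[ℂ] K') (x y : Fin 6 → K) (s : Fin 8) : f (num x y s) = num (f ∘ x) (f ∘ y) s := by
  fin_cases s <;> simp [num]

theorem num_pq {K : Type} [CommRing K] (a : Fin 8 → K) : num (pv a) (qv a) = a := by
  funext s
  fin_cases s <;> simp [num, pv, qv]

/-- the normalised frame -/
def nrm {K : Type} [Field K] (x y : Fin 6 → K) (s : Fin 8) : K :=
  num x y s / (x 0 * y 1 - x 1 * y 0)

theorem pv_nrm {K : Type} [Field K] {x y : Fin 6 → K} (h : x 0 * y 1 - x 1 * y 0 ≠ 0) :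
    pv (nrm x y) = (y 1 / (x 0 * y 1 - x 1 * y 0)) • x + (-x 1 / (x 0 * y 1 - x 1 * y 0)) • y := by
  have h1 := mul_inv_cancel₀ h
  funext l
  fin_cases l <;> simp only [pv, nrm, num, div_eq_mul_inv] <;>
    generalize (x 0 * y 1 - x 1 * y 0)⁻¹ = e at h1 <;> simp <;>
    first | ring1 | linear_combination -h1

theorem qv_nrm {K : Type} [Field K] {x y : Fin 6 → K} (h : x 0 * y 1 - x 1 * y 0 ≠ 0) :
    qv (nrm x y) = (-y 0 / (x 0 * y 1 - x 1 * y 0)) • x + (x 0 / (x 0 * y 1 - x 1 * y 0)) • y := by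
  have h1 := mul_inv_cancel₀ h
  funext l
  fin_cases l <;> simp only [qv, nrm, num, div_eq_mul_inv] <;>
    generalize (x 0 * y 1 - x 1 * y 0)⁻¹ = e at h1 <;> simp <;>
    first | ring1 | linear_combination -h1

/-- restriction of a function on the space of frames to the chart -/
def res : MvPolynomial (Fin 6 ⊕ Fin 6) ℂ →ₐ[ℂ] MvPolynomial (Fin 8) ℂ :=
  aeval (Sum.elim pX qX)

theorem res_plk : res (plk ℂ (0, 1)) = 1 := by
  rw [res, aeval_plk]
  simp

theorem res_eqs (G : MvPolynomial (Fin 6) ℂ) (i : Fin 4) :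
    res (eqs G (xx ℂ _) (yy ℂ _) i) = eqs G pX qX i := by
  rw [res, aeval_eqs]
  rfl

theorem exists_res {K : Type} [Field K] [Algebra ℂ K] (z : Fin 6 ⊕ Fin 6 → K)
    (hz : aeval z (plk ℂ ((0 : Fin 6), 1)) ≠ 0) (r : MvPolynomial (Fin 8) ℂ) :
    ∃ (N : ℕ) (R : MvPolynomial (Fin 6 ⊕ Fin 6) ℂ), res R = r ∧
      aeval z R = aeval z (plk ℂ ((0 : Fin 6), 1)) ^ N *
        aeval (nrm (z ∘ Sum.inl) (z ∘ Sum.inr)) r := by
  induction r using MvPolynomial.induction_on with
  | C a => exact ⟨0, C a, by simp [res], by simp⟩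
  | add p q hp hq =>
    obtain ⟨N, R, h1, h2⟩ := hp
    obtain ⟨N', R', h1', h2'⟩ := hq
    refine ⟨N + N', plk ℂ (0, 1) ^ N' * R + plk ℂ (0, 1) ^ N * R', ?_, ?_⟩
    · simp only [map_add, map_mul, map_pow, res_plk, h1, h1', one_pow, one_mul]
    · simp only [map_add, map_mul, map_pow, h2, h2']
      ring
  | mul_X p s hp =>
    obtain ⟨N, R, h1, h2⟩ := hp
    refine ⟨N + 1, R * num (xx ℂ _) (yy ℂ _) s, ?_, ?_⟩
    · rw [map_mul, h1, map_num, res, aeval_xx, aeval_yy]
      exact congrArg _ (congrFun (num_pq X) s)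
    · rw [map_mul, h2, map_num, aeval_xx, aeval_yy, map_mul, aeval_X, nrm]
      rw [aeval_plk] at hz ⊢
      simp only [Function.comp_apply]
      field_simp
      ring

/-- a generic point of the chart -/
theorem SmC.chart_gen (h : SmC G) {K : Type} [Field K] [Algebra ℂ K] (z : Fin 6 ⊕ Fin 6 → K)
    (hz : ∀ r, aeval z r = 0 ↔ r ∈ (h.frames card6).I) (r : MvPolynomial (Fin 8) ℂ) :
    aeval (nrm (z ∘ Sum.inl) (z ∘ Sum.inr)) r = 0 ↔ r ∈ fanoChartIdeal G := by
  have hp : aeval z (plk ℂ ((0 : Fin 6), 1)) ≠ 0 := fun h0 =>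
    h.plk_not_mem card6 (by decide) ((hz _).1 h0)
  constructor
  · intro hr
    obtain ⟨N, R, rfl, h2⟩ := exists_res z hp r
    rw [hr, mul_zero, hz] at h2
    have h3 : (h.frames card6).I ≤ (fanoChartIdeal G).comap res := Ideal.span_le.2 (by
      rintro _ ⟨i, rfl⟩
      change res (eqs G (xx ℂ _) (yy ℂ _) i) ∈ fanoChartIdeal G
      rw [res_eqs]
      exact eqs_mem_chart h.hom i)
    exact h3 h2
  · rw [aeval_plk] at hp
    refine (chart_iff h.hom _).2 (fun i => ?_) r
    rw [pv_nrm (x := z ∘ Sum.inl) (y := z ∘ Sum.inr) hp, qv_nrm (x := z ∘ Sum.inl)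
      (y := z ∘ Sum.inr) hp]
    refine eqs_comb (fun i => ?_) _ _ _ _ i
    rw [← aeval_eqs, hz]
    exact (h.frames card6).f_mem i

theorem SmC.chart_prime (h : SmC G) : (fanoChartIdeal G).IsPrime := by
  have := (h.frames card6).isPrime
  obtain ⟨K, _, _, z, hz⟩ := exists_gen (h.frames card6).I
  have e : fanoChartIdeal G = RingHom.ker (aeval (nrm (z ∘ Sum.inl) (z ∘ Sum.inr)) :
      MvPolynomial (Fin 8) ℂ →ₐ[ℂ] K) := by
    ext r
    rw [RingHom.mem_ker, h.chart_gen z hz]
  rw [e]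
  exact RingHom.ker_isPrime _

/-- tangent vectors of the chart -/
def emb (K : Type) [Field K] : (Fin 8 → K) →ₗ[K] (Fin 6 ⊕ Fin 6 → K) where
  toFun v := Sum.elim ![0, 0, v 0, v 1, v 2, v 3] ![0, 0, v 4, v 5, v 6, v 7]
  map_add' v w := by
    funext s
    rcases s with i | i <;> fin_cases i <;> simp
  map_smul' c v := by
    funext s
    rcases s with i | i <;> fin_cases i <;> simp

theorem tan_comb {K : Type*} [CommRing K] [Algebra ℂ K] {x y : Fin 6 → K}
    (h : ∀ i, eqs G x y i = 0) (a b c d : K) :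
    tan G x y (Sum.elim (a • x + b • y) (c • x + d • y)) = 0 := by
  have h0 : pol G x x x = 0 := h 0
  have h1 : pol G x x y = 0 := h 1
  have h2 : pol G x y y = 0 := h 2
  have h3 : pol G y y y = 0 := h 3
  rw [tan_apply]
  simp only [Sum.elim_comp_inl, Sum.elim_comp_inr, map_add, map_smul, smul_eq_mul,
    pol_23 G x y x, pol_13 G y y x, h0, h1, h2, h3]
  funext i
  fin_cases i <;> simp

theorem SmC.tan_emb_surj (h : SmC G) {K : Type} [Field K] [Algebra ℂ K] {a : Fin 8 → K}
    (ha : ∀ i, eqs G (pv a) (qv a) i = 0) :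
    LinearMap.range ((tan G (pv a) (qv a)).comp (emb K)) = ⊤ := by
  rw [eq_top_iff, ← h.tan_surj (x := pv a) (y := qv a) ⟨0, 1, by simp⟩]
  rintro _ ⟨v, rfl⟩
  set u := v - Sum.elim (v (Sum.inl 0) • pv a + v (Sum.inl 1) • qv a)
    (v (Sum.inr 0) • pv a + v (Sum.inr 1) • qv a) with hu
  refine ⟨![u (Sum.inl 2), u (Sum.inl 3), u (Sum.inl 4), u (Sum.inl 5),
    u (Sum.inr 2), u (Sum.inr 3), u (Sum.inr 4), u (Sum.inr 5)], ?_⟩
  have e : emb K ![u (Sum.inl 2), u (Sum.inl 3), u (Sum.inl 4), u (Sum.inl 5),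
      u (Sum.inr 2), u (Sum.inr 3), u (Sum.inr 4), u (Sum.inr 5)] = u := by
    have a0 : u (Sum.inl 0) = 0 := by simp [hu]
    have a1 : u (Sum.inl 1) = 0 := by simp [hu]
    have a2 : u (Sum.inr 0) = 0 := by simp [hu]
    have a3 : u (Sum.inr 1) = 0 := by simp [hu]
    funext s
    rcases s with i | i <;> fin_cases i <;> simp [emb, a0, a1, a2, a3]
  rw [LinearMap.comp_apply, e, hu, map_sub, tan_comb ha, sub_zero]

theorem SmC.chart_height (h : SmC G) (Q : Ideal (MvPolynomial (Fin 8) ℂ)) (hQ : Q.IsPrime)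
    (hle : fanoChartIdeal G ≤ Q) : ((4 : ℕ) : ℕ∞) ≤ Q.height := by
  refine le_height' Q fun K _ _ z hz => ?_
  have ha : ∀ i, eqs G (pv z) (qv z) i = 0 :=
    (chart_iff h.hom _).1 fun r hr => (hz r).2 (hle hr)
  set T := (tan G (pv z) (qv z)).comp (emb K) with hT
  refine ⟨LinearMap.ker T, fun D => ?_, ?_⟩
  · funext i
    have h4 := deriv_eqs G D (Sum.elim (pv z) (qv z)) i
    have e : D ∘ Sum.elim (pv z) (qv z) = emb K fun s => D (z s) := by
      funext s
      rcases s with i | i <;> fin_cases i <;> simp [emb, pv, qv]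
    rw [Sum.elim_comp_inl, Sum.elim_comp_inr, ha, map_zero, e] at h4
    exact h4.symm
  · have h3 := LinearMap.finrank_range_add_finrank_ker T
    rw [h.tan_emb_surj ha, finrank_top, Module.finrank_fintype_fun_eq_card,
      Module.finrank_fintype_fun_eq_card, Fintype.card_fin] at h3
    rw [← h3, add_comm]

/-- **the chart is integral** -/
theorem chart_isDomain (h1 : G.IsHomogeneous 3)
    (h2 : ∀ p : Fin 6 → ℂ, p ≠ 0 → eval p G = 0 → ∃ i, eval p (pderiv i G) ≠ 0) :
    IsDomain (fanoChart G) :=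
  (Ideal.Quotient.isDomain_iff_prime _).2 (SmC.chart_prime ⟨h1, h2⟩)

/-- **the chart has dimension at most four** -/
theorem chart_dim (h1 : G.IsHomogeneous 3)
    (h2 : ∀ p : Fin 6 → ℂ, p ≠ 0 → eval p G = 0 → ∃ i, eval p (pderiv i G) ≠ 0) :
    ringKrullDim (fanoChart G) ≤ 4 :=
  dim_quot_le (c := 4) (n := 4) _ (by simp) (SmC.chart_height ⟨h1, h2⟩)

end chart

end

end Crest.Agent.X262.Fano21
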